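import Vale.Agent.P096.III.Encode.Smear
import Vale.Agent.P132.Fixed.Window

/-!
# P096, type III, encoding: square sums over evenly spaced frequencies of a smeared vector
-/

namespace Vale.Agent.P096.III.Encode

open scoped InnerProductSpace ComplexConjugate
open MeasureTheory
open Vale.Agent.P132 (ModData gauss)
open Vale.Agent.P132.Fixed (gam ph vint kwin)

universe u

variable {H : Type u} [NormedAddCommGroup H] [InnerProductSpace ℂ H] [CompleteSpace H]
  {M : VonNeumannAlgebra H} {Ω : H} (D : ModData M Ω)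

/-- Bessel's inequality against a Gaussian majorant. -/
theorem sum_norm_vint_le {K : ℕ} {S A B : ℝ} (hS : 0 < S) {e : Fin K → ℝ}
    (hA : RowBound S (fun a => -e a) A) {k : ℝ → ℂ} (hk : Continuous k) (hB : 0 ≤ B) (hA0 : 0 ≤ A)
    (hle : ∀ t, ‖k t‖ ≤ B * Real.exp (-(t / S) ^ 2 / 2)) (ξ : H) :
    ∑ a, ‖vint D (fun t => k t * ph (e a) t) ξ‖ ^ 2 ≤
      (B * ((S * √(2 * Real.pi) + A) / 2) * ‖ξ‖) ^ 2 := by
  let g : ℝ → ℝ := fun t => Real.exp (-(t / S) ^ 2 / 2)
  have hg : Integrable g := by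
    simpa [g, P132.Fixed.norm_gam] using (P132.Fixed.integrable_gam hS).norm
  have hgI : ∫ t, g t = S * √(2 * Real.pi) := by
    have h := integral_gauss hS 0
    simp only [P132.Fixed.gauss_eq, P132.Fixed.gam_ofReal, mul_zero, ph, Complex.ofReal_zero,
      zero_mul, neg_zero, Complex.exp_zero, mul_one, ne_eq, OfNat.ofNat_ne_zero, not_false_eq_true,
      zero_pow, zero_div, Real.exp_zero] at h
    rw [integral_complex_ofReal] at h
    exact_mod_cast h
  have hki : ∀ a, Integrable fun t => k t * ph (e a) t := fun a => by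
    refine (hg.const_mul B).mono' (hk.mul (P132.Fixed.continuous_ph.comp
      (continuous_const.prodMk continuous_id))).aestronglyMeasurable
      (Filter.Eventually.of_forall fun t => ?_)
    rw [norm_mul, P132.Fixed.norm_ph, mul_one]
    exact hle t
  set I : Fin K → H := fun a => vint D (fun t => k t * ph (e a) t) ξ with hI
  set X := √(∑ a, ‖I a‖ ^ 2) with hX
  have hX2 : X ^ 2 = ∑ a, ‖I a‖ ^ 2 := Real.sq_sqrt (Finset.sum_nonneg fun a _ => sq_nonneg _)
  rcases (Real.sqrt_nonneg (∑ a, ‖I a‖ ^ 2)).eq_or_lt with h0 | h0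
  · show ∑ a, ‖I a‖ ^ 2 ≤ _
    rw [← hX2, hX, ← h0, zero_pow two_ne_zero]
    exact sq_nonneg _
  rw [← hX] at h0
  clear_value X
  have key : ((X ^ 2 : ℝ) : ℂ) =
      ∫ t : ℝ, k t * ⟪trig (fun a => -e a) I t, D.U t ξ⟫_ℂ := by
    rw [hX2, Complex.ofReal_sum]
    have h1 : ∀ a, ((‖I a‖ ^ 2 : ℝ) : ℂ) = ∫ t : ℝ, k t * ph (e a) t * ⟪I a, D.U t ξ⟫_ℂ :=
      fun a => by rw [Complex.ofReal_pow, ofReal_norm_sq, ← P132.Fixed.inner_vint D (hki a)]
    simp only [h1]
    rw [← integral_finsetSum]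
    · refine integral_congr_ae (Filter.Eventually.of_forall fun t => ?_)
      simp only [trig, sum_inner, inner_smul_left, P132.Fixed.conj_ph, neg_neg, Finset.mul_sum,
        mul_assoc]
    · intro a _
      refine (hki a).mul_bdd (c := ‖I a‖ * ‖ξ‖)
        (continuous_const.inner (D.U_cont ξ)).aestronglyMeasurable
        (Filter.Eventually.of_forall fun t =>
          (norm_inner_le_norm _ _).trans_eq (by rw [P132.Fixed.norm_U]))
  have hbd : ∀ t, ‖k t * ⟪trig (fun a => -e a) I t, D.U t ξ⟫_ℂ‖ ≤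
      B * ‖ξ‖ / 2 * (X * g t + g t * ‖trig (fun a => -e a) I t‖ ^ 2 / X) := fun t => by
    set h := ‖trig (fun a => -e a) I t‖
    have h1 : ‖⟪trig (fun a => -e a) I t, D.U t ξ⟫_ℂ‖ ≤ h * ‖ξ‖ :=
      (norm_inner_le_norm _ _).trans_eq (by rw [P132.Fixed.norm_U])
    rw [norm_mul]
    refine (mul_le_mul (hle t) h1 (norm_nonneg _) (by positivity)).trans ?_
    have h2 : 2 * h ≤ X + h ^ 2 / X := by
      have : 2 * h * X ≤ X ^ 2 + h ^ 2 := by nlinarith [sq_nonneg (h - X)]
      calc 2 * h = 2 * h * X / X := by field_simp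
        _ ≤ (X ^ 2 + h ^ 2) / X := div_le_div_of_nonneg_right this h0.le
        _ = _ := by field_simp
    calc B * g t * (h * ‖ξ‖) = B * ‖ξ‖ / 2 * g t * (2 * h) := by ring
      _ ≤ B * ‖ξ‖ / 2 * g t * (X + h ^ 2 / X) :=
          mul_le_mul_of_nonneg_left h2 (mul_nonneg (by positivity) (Real.exp_pos _).le)
      _ = _ := by ring
  have ig := integrable_gram hS (fun a => -e a) I
  have hle2 := norm_integral_le_of_norm_le (((hg.const_mul X).add (ig.div_const X)).const_mul _)
    (Filter.Eventually.of_forall hbd)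
  rw [← key, Complex.norm_real, Real.norm_of_nonneg (sq_nonneg _), integral_const_mul] at hle2
  simp only [Pi.add_apply] at hle2
  rw [integral_add (hg.const_mul X) (ig.div_const X), integral_const_mul, hgI, integral_div] at hle2
  have hgr := integral_gram_le hS hA I
  rw [← hX2] at hgr
  have h3 : X ^ 2 ≤ B * ((S * √(2 * Real.pi) + A) / 2) * ‖ξ‖ * X := by
    refine hle2.trans ((mul_le_mul_of_nonneg_left (add_le_add le_rfl
      (div_le_div_of_nonneg_right hgr h0.le)) (by positivity)).trans_eq ?_)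
    field_simp
  have h4 : X ≤ B * ((S * √(2 * Real.pi) + A) / 2) * ‖ξ‖ :=
    le_of_mul_le_mul_right (by rwa [← sq]) h0
  show ∑ a, ‖I a‖ ^ 2 ≤ _
  rw [← hX2]
  exact pow_le_pow_left₀ h0.le h4 2

/-- The difference of a window and its shift is of order the inverse width. -/
theorem norm_kwin_le {T : ℝ} (hT : 1 ≤ T) (t : ℝ) :
    ‖kwin T t‖ ≤ Real.exp 9 / T * Real.exp (-(t / (2 * T)) ^ 2 / 2) := by
  have hT0 : 0 < T := by linarith
  obtain ⟨u, rfl⟩ : ∃ u, t = T * u := ⟨t / T, by field_simp⟩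
  rw [P132.Fixed.kwin_scale hT0, norm_mul, P132.Fixed.norm_gam, norm_sub_rev]
  have hz := P132.Fixed.norm_zwin_le hT u
  have hz' : ‖P132.Fixed.zwin T u‖ ≤ |u| + 1 := hz.trans (div_le_self (by positivity) (by linarith))
  have h1 : ‖Complex.exp (P132.Fixed.zwin T u) - 1‖ ≤ Real.exp (2 * |u| + 1) / T := by
    refine (P132.Fixed.norm_exp_sub_one _).trans ((mul_le_mul (mul_le_mul_of_nonneg_left hz
      zero_le_two) (Real.exp_le_exp.2 hz') (Real.exp_pos _).le (by positivity)).trans ?_)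
    rw [show 2 * ((|u| + 1) / (2 * T)) * Real.exp (|u| + 1) =
        (|u| + 1) * Real.exp (|u| + 1) / T by field_simp,
      show 2 * |u| + 1 = |u| + (|u| + 1) by ring, Real.exp_add |u| (|u| + 1), mul_div_assoc]
    rw [← mul_div_assoc]
    gcongr
    exact Real.add_one_le_exp _
  refine (mul_le_mul_of_nonneg_left h1 (Real.exp_pos _).le).trans ?_
  rw [mul_div_assoc', div_mul_eq_mul_div, ← Real.exp_add, ← Real.exp_add]
  refine div_le_div_of_nonneg_right (Real.exp_le_exp.2 ?_) hT0.le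
  rw [show (T * u / (2 * T)) ^ 2 = u ^ 2 / 4 by field_simp; ring, div_one]
  nlinarith [sq_nonneg (|u| - 8 / 3), sq_abs u]

theorem continuous_kwin (T : ℝ) : Continuous (kwin T) :=
  ((P132.Fixed.continuous_gam T).comp Complex.continuous_ofReal).sub
    ((P132.Fixed.continuous_gam T).comp (by fun_prop))

theorem gauss_shift_kwin (T E t : ℝ) :
    ((Real.exp (E / 2) : ℝ) : ℂ) * gauss T E (t : ℂ) - gauss T E ((t : ℂ) + Complex.I / 2) =
      ((Real.exp (E / 2) : ℝ) : ℂ) * (kwin T t * ph E t) := by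
  have e : Complex.exp (-(Complex.I * (E : ℂ) * ((t : ℂ) + Complex.I / 2))) =
      ((Real.exp (E / 2) : ℝ) : ℂ) * ph E t := by
    rw [Complex.ofReal_exp, ph, ← Complex.exp_add]
    congr 1
    push_cast
    linear_combination (-(E : ℂ) / 2) * Complex.I_sq
  rw [P132.Fixed.gauss_eq, P132.gauss, e, kwin, gam, gam]
  ring

end Vale.Agent.P096.III.Encode
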