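import Vale.Agent.P132.Fixed.Gauss

/-!
# P096, type III, encoding: Gaussian windows at evenly spaced frequencies

The vectors `∑_a exp(-i e_a t) q_a` have square mean at most `A ∑ ‖q_a‖²` against a Gaussian whose
Fourier transform has row sums at most `A` on the frequencies `e`.
-/

namespace Vale.Agent.P096.III.Encode

open scoped InnerProductSpace ComplexConjugate
open MeasureTheory
open Vale.Agent.P132 (gauss)
open Vale.Agent.P132.Fixed (gam ph)

theorem integral_gauss {T : ℝ} (hT : 0 < T) (E : ℝ) :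
    ∫ t : ℝ, gauss T E (t : ℂ) =
      ((T * √(2 * Real.pi) * Real.exp (-(T * E) ^ 2 / 2) : ℝ) : ℂ) := by
  have hT' : (T : ℂ) ≠ 0 := Complex.ofReal_ne_zero.2 hT.ne'
  have hb : 0 < (((1 / (2 * T ^ 2) : ℝ)) : ℂ).re := by
    rw [Complex.ofReal_re]; positivity
  calc ∫ t : ℝ, gauss T E (t : ℂ)
      = ∫ t : ℝ, Complex.exp (Complex.I * ((-E : ℝ) : ℂ) * t) *
          Complex.exp (-(((1 / (2 * T ^ 2) : ℝ)) : ℂ) * (t : ℂ) ^ 2) := by
        refine integral_congr_ae (Filter.Eventually.of_forall fun t => ?_)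
        show gauss T E (t : ℂ) = _
        rw [P132.gauss, mul_comm]
        congr 1
        · congr 1; push_cast; ring
        · congr 1; push_cast; field_simp
    _ = _ := by
        rw [fourierIntegral_gaussian hb]
        have e : (Real.pi : ℂ) / (((1 / (2 * T ^ 2) : ℝ)) : ℂ) = ((2 * Real.pi * T ^ 2 : ℝ) : ℂ) := by
          push_cast; field_simp
        have h : (T * √(2 * Real.pi) : ℝ) = (2 * Real.pi * T ^ 2) ^ (1 / 2 : ℝ) := by
          rw [← Real.sqrt_eq_rpow, Real.sqrt_mul (by positivity : (0 : ℝ) ≤ 2 * Real.pi) (T ^ 2),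
            Real.sqrt_sq hT.le, mul_comm]
        rw [e, show (1 / 2 : ℂ) = ((1 / 2 : ℝ) : ℂ) by push_cast; rfl,
          ← Complex.ofReal_cpow (by positivity), Complex.ofReal_mul (_ * _), h]
        congr 1
        push_cast
        congr 1
        field_simp
        ring

/-- A Riemann sum of the Gaussian is below its integral. -/
theorem sum_gauss_succ_le {τ : ℝ} (hτ : 0 ≤ τ) (K : ℕ) :
    ∑ j ∈ Finset.range K, τ * Real.exp (-(τ * (j + 1 : ℕ)) ^ 2 / 2) ≤ √(2 * Real.pi) / 2 := by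
  rcases hτ.eq_or_lt with rfl | hτ0
  · simp; positivity
  have hanti : AntitoneOn (fun x : ℝ => Real.exp (-(τ * x) ^ 2 / 2)) (Set.Icc (0 : ℝ) (0 + K)) :=
    fun x hx y _ hxy => Real.exp_le_exp.2 (by
      have : (τ * x) ^ 2 ≤ (τ * y) ^ 2 :=
        pow_le_pow_left₀ (mul_nonneg hτ hx.1) (mul_le_mul_of_nonneg_left hxy hτ) 2
      linarith)
  have h1 := hanti.sum_le_integral
  simp only [zero_add] at h1
  rw [← Finset.mul_sum]
  refine (mul_le_mul_of_nonneg_left h1 hτ).trans ?_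
  have hb : 0 < τ ^ 2 / 2 := by positivity
  have h2 : ∫ x in (0 : ℝ)..K, Real.exp (-(τ * x) ^ 2 / 2) ≤
      ∫ x in Set.Ioi (0 : ℝ), Real.exp (-(τ * x) ^ 2 / 2) := by
    rw [intervalIntegral.integral_of_le (Nat.cast_nonneg K)]
    refine setIntegral_mono_set (Integrable.integrableOn ?_)
      (Filter.Eventually.of_forall fun x => (Real.exp_pos _).le)
      (HasSubset.Subset.eventuallyLE Set.Ioc_subset_Ioi_self)
    simpa [mul_pow, neg_div, mul_div_right_comm] using integrable_exp_neg_mul_sq hb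
  refine (mul_le_mul_of_nonneg_left h2 hτ).trans (le_of_eq ?_)
  have e : ∀ x : ℝ, -(τ * x) ^ 2 / 2 = -(τ ^ 2 / 2) * x ^ 2 := fun x => by ring
  simp only [e, integral_gaussian_Ioi]
  rw [show Real.pi / (τ ^ 2 / 2) = 2 * Real.pi / τ ^ 2 by field_simp,
    Real.sqrt_div' _ (sq_nonneg τ), Real.sqrt_sq hτ]
  field_simp

theorem row_le {τ : ℝ} (hτ : 0 ≤ τ) {K : ℕ} (a : Fin K) :
    ∑ b : Fin K, τ * Real.exp (-(τ * ((a : ℝ) - b)) ^ 2 / 2) ≤ τ + √(2 * Real.pi) := by
  classical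
  let g : ℕ → ℝ := fun j => τ * Real.exp (-(τ * j) ^ 2 / 2)
  have hg : ∀ j, 0 ≤ g j := fun j => mul_nonneg hτ (Real.exp_pos _).le
  have part : ∀ (s : Finset (Fin K)) (f : Fin K → ℕ), (∀ b ∈ s, f b < K) →
      Set.InjOn f s → ∑ b ∈ s, g (f b + 1) ≤ √(2 * Real.pi) / 2 := fun s f hf hi => by
    rw [← Finset.sum_image (f := fun j => g (j + 1)) hi]
    exact (Finset.sum_le_sum_of_subset_of_nonneg (by
      intro j hj
      obtain ⟨b, hb, rfl⟩ := Finset.mem_image.1 hj
      exact Finset.mem_range.2 (hf b hb)) fun j _ _ => hg _).trans (sum_gauss_succ_le hτ K)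
  let φ : Fin K → ℝ := fun b => τ * Real.exp (-(τ * ((a : ℝ) - b)) ^ 2 / 2)
  have h1 : ∑ b ∈ Finset.univ.filter (fun b : Fin K => (b : ℕ) < a), φ b ≤
      √(2 * Real.pi) / 2 := by
    have e : ∀ b ∈ Finset.univ.filter (fun b : Fin K => (b : ℕ) < a),
        φ b = g ((a : ℕ) - b - 1 + 1) := fun b hb => by
      have h := (Finset.mem_filter.1 hb).2
      simp only [φ, g, show (a : ℕ) - b - 1 + 1 = (a : ℕ) - b by omega, Nat.cast_sub h.le]
    rw [Finset.sum_congr rfl e]
    refine part _ (fun b => (a : ℕ) - b - 1) (fun b _ => by omega) fun b hb b' hb' h => Fin.ext ?_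
    simp only [Finset.coe_filter, Set.mem_ofPred_eq] at hb hb'
    simp only at h
    omega
  have h2 : ∑ b ∈ Finset.univ.filter (fun b : Fin K => (a : ℕ) < b), φ b ≤
      √(2 * Real.pi) / 2 := by
    have e : ∀ b ∈ Finset.univ.filter (fun b : Fin K => (a : ℕ) < b),
        φ b = g ((b : ℕ) - a - 1 + 1) := fun b hb => by
      have h := (Finset.mem_filter.1 hb).2
      simp only [φ, g, show (b : ℕ) - a - 1 + 1 = (b : ℕ) - a by omega, Nat.cast_sub h.le]
      rw [show -(τ * ((a : ℝ) - b)) ^ 2 = -(τ * ((b : ℝ) - a)) ^ 2 by ring]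
    rw [Finset.sum_congr rfl e]
    refine part _ (fun b => (b : ℕ) - a - 1) (fun b _ => by omega) fun b hb b' hb' h => Fin.ext ?_
    simp only [Finset.coe_filter, Set.mem_ofPred_eq] at hb hb'
    simp only at h
    omega
  have hsplit : ∑ b, φ b = φ a + ((∑ b ∈ Finset.univ.filter (fun b : Fin K => (b : ℕ) < a), φ b) +
      ∑ b ∈ Finset.univ.filter (fun b : Fin K => (a : ℕ) < b), φ b) := by
    rw [← Finset.add_sum_erase _ _ (Finset.mem_univ a)]
    congr 1
    rw [← Finset.sum_union (Finset.disjoint_filter.2 fun b _ h h' => absurd h (not_lt.2 h'.le))]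
    refine Finset.sum_congr (Finset.ext fun b => ?_) fun b _ => rfl
    simp only [Finset.mem_erase, Finset.mem_univ, and_true, Finset.mem_union, Finset.mem_filter,
      true_and, ne_eq, Fin.ext_iff]
    omega
  show ∑ b, φ b ≤ _
  have h0 : φ a = τ := by simp [φ]
  rw [hsplit, h0]
  linarith

theorem schur_le {ι : Type*} [Fintype ι] {k : ι → ι → ℝ} {A : ℝ} (hk : ∀ i j, 0 ≤ k i j)
    (hs : ∀ i j, k i j = k j i) (hr : ∀ i, ∑ j, k i j ≤ A) (p : ι → ℝ) :
    ∑ i, ∑ j, k i j * (p i * p j) ≤ A * ∑ i, p i ^ 2 := by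
  have h1 : ∑ i, ∑ j, k i j * (p i * p j) ≤ ∑ i, ∑ j, k i j * ((p i ^ 2 + p j ^ 2) / 2) := by
    gcongr with i _ j _
    · exact hk i j
    · nlinarith [sq_nonneg (p i - p j)]
  have h2 : ∑ i, ∑ j, k i j * p j ^ 2 = ∑ i, ∑ j, k i j * p i ^ 2 := by
    rw [Finset.sum_comm]
    exact Finset.sum_congr rfl fun i _ => Finset.sum_congr rfl fun j _ => by rw [hs]
  refine h1.trans ?_
  calc ∑ i, ∑ j, k i j * ((p i ^ 2 + p j ^ 2) / 2)
      = ((∑ i, ∑ j, k i j * p i ^ 2) + ∑ i, ∑ j, k i j * p j ^ 2) / 2 := by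
        simp only [← Finset.sum_add_distrib, Finset.sum_div]
        exact Finset.sum_congr rfl fun i _ => Finset.sum_congr rfl fun j _ => by ring
    _ = ∑ i, (∑ j, k i j) * p i ^ 2 := by
        rw [h2, add_self_div_two]
        simp only [Finset.sum_mul]
    _ ≤ _ := by
        rw [Finset.mul_sum]
        gcongr with i _
        exact hr i

universe v

variable {E : Type v} [NormedAddCommGroup E] [InnerProductSpace ℂ E]
variable {K : ℕ}

/-- The trigonometric sum. -/
noncomputable def trig (e : Fin K → ℝ) (q : Fin K → E) (t : ℝ) : E := ∑ a, ph (e a) t • q a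

theorem continuous_trig (e : Fin K → ℝ) (q : Fin K → E) : Continuous (trig e q) :=
  continuous_finsetSum _ fun a _ =>
    (P132.Fixed.continuous_ph.comp (continuous_const.prodMk continuous_id)).smul continuous_const

theorem norm_trig_le (e : Fin K → ℝ) (q : Fin K → E) (t : ℝ) : ‖trig e q t‖ ≤ ∑ a, ‖q a‖ :=
  (norm_sum_le _ _).trans (Finset.sum_le_sum fun a _ => by
    rw [norm_smul, P132.Fixed.norm_ph, one_mul])

/-- The row sums of the transformed window. -/
def RowBound (T : ℝ) (e : Fin K → ℝ) (A : ℝ) : Prop :=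
  ∀ a, ∑ b, T * √(2 * Real.pi) * Real.exp (-(T * (e b - e a)) ^ 2 / 2) ≤ A

theorem integrable_gram {T : ℝ} (hT : 0 < T) (e : Fin K → ℝ) (q : Fin K → E) :
    Integrable fun t : ℝ => Real.exp (-(t / T) ^ 2 / 2) * ‖trig e q t‖ ^ 2 := by
  have h : Integrable fun t : ℝ => Real.exp (-(t / T) ^ 2 / 2) := by
    simpa [P132.Fixed.norm_gam] using (P132.Fixed.integrable_gam hT).norm
  refine h.mul_bdd (c := (∑ a, ‖q a‖) ^ 2)
    ((continuous_trig e q).norm.pow 2).aestronglyMeasurable (Filter.Eventually.of_forall fun t => ?_)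
  rw [Real.norm_of_nonneg (sq_nonneg _)]
  exact pow_le_pow_left₀ (norm_nonneg _) (norm_trig_le e q t) 2

theorem ofReal_norm_sq (x : E) : ((‖x‖ : ℝ) : ℂ) ^ 2 = ⟪x, x⟫_ℂ := by
  rw [inner_self_eq_norm_sq_to_K, RCLike.ofReal_eq_complex_ofReal]

theorem integral_gram_le {T A : ℝ} (hT : 0 < T) {e : Fin K → ℝ} (hA : RowBound T e A)
    (q : Fin K → E) :
    ∫ t : ℝ, Real.exp (-(t / T) ^ 2 / 2) * ‖trig e q t‖ ^ 2 ≤ A * ∑ a, ‖q a‖ ^ 2 := by
  have hpt : ∀ t : ℝ, ((Real.exp (-(t / T) ^ 2 / 2) * ‖trig e q t‖ ^ 2 : ℝ) : ℂ) =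
      ∑ a, ∑ b, gauss T (e b - e a) (t : ℂ) * ⟪q a, q b⟫_ℂ := fun t => by
    rw [Complex.ofReal_mul, Complex.ofReal_pow,
      ofReal_norm_sq, trig, sum_inner, Finset.mul_sum]
    refine Finset.sum_congr rfl fun a _ => ?_
    rw [inner_sum, Finset.mul_sum]
    refine Finset.sum_congr rfl fun b _ => ?_
    rw [inner_smul_left, inner_smul_right, P132.Fixed.conj_ph, P132.Fixed.gauss_eq,
      P132.Fixed.gam_ofReal, sub_eq_neg_add, P132.Fixed.ph_add]
    ring
  have hint : ∀ a b, Integrable fun t : ℝ => gauss T (e b - e a) (t : ℂ) * ⟪q a, q b⟫_ℂ :=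
    fun a b => (P132.Fixed.integrable_gauss hT _).mul_const _
  have key : ((∫ t : ℝ, Real.exp (-(t / T) ^ 2 / 2) * ‖trig e q t‖ ^ 2 : ℝ) : ℂ) =
      ∑ a, ∑ b, ((T * √(2 * Real.pi) * Real.exp (-(T * (e b - e a)) ^ 2 / 2) : ℝ) : ℂ) *
        ⟪q a, q b⟫_ℂ := by
    rw [← integral_complex_ofReal]
    simp only [hpt]
    rw [integral_finsetSum _ fun a _ => integrable_finsetSum _ fun b _ => hint a b]
    refine Finset.sum_congr rfl fun a _ => ?_
    rw [integral_finsetSum _ fun b _ => hint a b]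
    exact Finset.sum_congr rfl fun b _ => by rw [integral_mul_const, integral_gauss hT]
  refine (le_abs_self _).trans ?_
  rw [← Real.norm_eq_abs, ← Complex.norm_real, key]
  refine (norm_sum_le _ _).trans (le_trans (Finset.sum_le_sum fun a _ => norm_sum_le _ _) ?_)
  refine le_trans (Finset.sum_le_sum fun a _ => Finset.sum_le_sum fun b _ => ?_)
    (schur_le (k := fun a b => T * √(2 * Real.pi) * Real.exp (-(T * (e b - e a)) ^ 2 / 2))
      (fun a b => by positivity) (fun a b => by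
        simp only [show -(T * (e b - e a)) ^ 2 = -(T * (e a - e b)) ^ 2 by ring]) hA
      fun a => ‖q a‖)
  rw [norm_mul, Complex.norm_real, Real.norm_of_nonneg (by positivity)]
  gcongr
  exact norm_inner_le_norm _ _

/-- Evenly spaced frequencies. -/
noncomputable def freq (s : ℝ) (K : ℕ) : Fin K → ℝ := fun a => s * (a : ℝ)

theorem rowBound_freq {T τ s : ℝ} (hτ : 0 ≤ τ) (hs : s ≠ 0) (hT : T = τ / |s|) :
    RowBound T (freq s K) (√(2 * Real.pi) / |s| * (τ + √(2 * Real.pi))) := fun a => by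
  refine le_trans (le_of_eq ?_) (mul_le_mul_of_nonneg_left (row_le hτ a) (by positivity))
  rw [Finset.mul_sum]
  refine Finset.sum_congr rfl fun b _ => ?_
  have e : (T * (freq s K b - freq s K a)) ^ 2 = (τ * ((a : ℝ) - b)) ^ 2 := by
    rw [hT, freq, freq, mul_pow, div_pow, sq_abs]
    field_simp
    ring
  rw [neg_div, neg_div, e, hT]
  ring

end Vale.Agent.P096.III.Encode
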