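import Vale.Agent.P096.III.Encode.Units
import Vale.Agent.P096.III.Encode.Bessel

/-!
# P096, type III, encoding: the compression into one site and its defect

`iota` sends `x` to `∑ e_a0 x_(s (a - b)) e_0b`. It has norm at most `(1 + τ) ‖x‖` and is within
`C s / τ` of the centraliser of `Ω`, over every part of the centre.
-/

namespace Vale.Agent.P096.III.Encode

open scoped InnerProductSpace ComplexConjugate
open MeasureTheory
open Vale.Agent.P132 (ModData IsCS gauss)
open Vale.Agent.P132.Fixed (gam ph vint kwin)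
open Vale.Agent.P132.Modular (conjOp)

universe u

variable {H : Type u} [NormedAddCommGroup H] [InnerProductSpace ℂ H] [CompleteSpace H]
  {M : VonNeumannAlgebra H} {Ω : H} (D : ModData M Ω) {K : ℕ} [NeZero K]
  {c : Fin K → ℝ} {e f : Fin K → Fin K → H →L[ℂ] H} {τ s : ℝ}

/-- The compression of `x` into the site. -/
noncomputable def iota (τ s : ℝ) (e : Fin K → Fin K → H →L[ℂ] H) (x : H →L[ℂ] H) : H →L[ℂ] H :=
  ∑ a : Fin K, ∑ b : Fin K, e a 0 * part D τ s (s * ((a : ℝ) - b)) x * e 0 b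

theorem iota_mem (h : IsSite M Ω c e f) (hτ : 0 < τ) (hs : s ≠ 0) {x : H →L[ℂ] H} (hx : x ∈ M) :
    iota D τ s e x ∈ M :=
  sum_mem (t := Finset.univ) fun a _ => sum_mem (t := Finset.univ) fun b _ =>
    mul_mem (mul_mem (h.e_mem a 0) (part_mem D hτ hs _ hx)) (h.e_mem 0 b)

theorem iota_add (hτ : 0 < τ) (hs : s ≠ 0) (x y : H →L[ℂ] H) :
    iota D τ s e (x + y) = iota D τ s e x + iota D τ s e y := by
  simp only [iota, part_add D hτ hs, mul_add, add_mul, Finset.sum_add_distrib]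

theorem iota_smul (hτ : 0 < τ) (hs : s ≠ 0) (z : ℂ) (x : H →L[ℂ] H) :
    iota D τ s e (z • x) = z • iota D τ s e x := by
  simp only [iota, part_smul D hτ hs, mul_smul_comm, smul_mul_assoc, Finset.smul_sum]

theorem star_iota (he : IsUnits e) (hτ : 0 < τ) (hs : s ≠ 0) (x : H →L[ℂ] H) :
    star (iota D τ s e x) = iota D τ s e (star x) := by
  simp only [iota, star_sum, star_mul, star_part D hτ hs, he.star_eq, mul_assoc]
  rw [Finset.sum_comm]
  refine Finset.sum_congr rfl fun b _ => Finset.sum_congr rfl fun a _ => ?_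
  rw [show -(s * ((a : ℝ) - b)) = s * ((b : ℝ) - a) by ring]

theorem norm_iota_le (he : IsUnits e) (hτ : 0 < τ) (hs : s ≠ 0) (x : H →L[ℂ] H) :
    ‖iota D τ s e x‖ ≤ (1 + τ) * ‖x‖ := by
  refine ContinuousLinearMap.opNorm_le_of_re_inner_le (by positivity) fun v w hv hw => ?_
  refine (RCLike.re_le_norm _).trans ?_
  rw [← inner_conj_symm, Complex.norm_conj]
  simp only [iota, sum_apply, inner_sum, mul_apply_eq_comp]
  have e1 : ∀ (a : Fin K) (y : H), ⟪w, e a 0 y⟫_ℂ = ⟪e 0 a w, y⟫_ℂ := fun a y => by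
    rw [← he.star_eq 0 a, ContinuousLinearMap.star_eq_adjoint,
      ContinuousLinearMap.adjoint_inner_right]
  simp only [e1]
  refine (norm_pairing_le D hτ hs x (fun a => e 0 a w) (fun b => e 0 b v)).trans ?_
  simp only [norm_unit he 0, sum_norm_diag he, hv, hw]
  norm_num

theorem norm_sum_unit {g : Fin K → Fin K → H →L[ℂ] H} (hg : IsUnits g) (u : Fin K → H) :
    ‖∑ a, g a 0 (u a)‖ ^ 2 = ∑ a, ‖g 0 0 (u a)‖ ^ 2 := by
  rw [← sum_norm_diag hg]
  refine Finset.sum_congr rfl fun i _ => ?_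
  rw [map_sum, Finset.sum_eq_single i]
  · rw [← mul_apply_eq_comp, hg.mul, if_pos rfl, norm_unit hg i 0]
  · intro a _ ha
    rw [← mul_apply_eq_comp, hg.mul, if_neg (Ne.symm ha), zero_apply]
  · simp

theorem norm_sum_units (h : IsSite M Ω c e f) (u : Fin K → Fin K → H) :
    ‖∑ a, ∑ b, e a 0 (f b 0 (u a b))‖ ^ 2 = ∑ a, ∑ b, ‖corner e f (u a b)‖ ^ 2 := by
  have h1 : ∑ a, ∑ b, e a 0 (f b 0 (u a b)) = ∑ a, e a 0 (∑ b, f b 0 (u a b)) := by
    simp only [map_sum]
  rw [h1, norm_sum_unit h.e_units]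
  refine Finset.sum_congr rfl fun a _ => ?_
  have h2 : e 0 0 (∑ b, f b 0 (u a b)) = ∑ b, f b 0 (e 0 0 (u a b)) := by
    rw [map_sum]
    exact Finset.sum_congr rfl fun b _ => apply_comm (h.commute 0 0 b 0) _
  rw [h2, norm_sum_unit h.f_units]
  rfl

theorem IsSite.J_e (h : IsSite M Ω c e f) (hcs : IsCS M Ω) (a b : Fin K) (v : H) :
    D.J (e a b v) = f a b (D.J v) := by
  rw [← h.conjOp_e D hcs, P132.Modular.conjOp_apply, D.J_invol]

theorem IsSite.J_f (h : IsSite M Ω c e f) (hcs : IsCS M Ω) (a b : Fin K) (v : H) :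
    D.J (f a b v) = e a b (D.J v) := by
  rw [← h.conjOp_f D hcs, P132.Modular.conjOp_apply, D.J_invol]

/-- The vector of the defect at one entry. -/
theorem IsSite.defect_entry (h : IsSite M Ω c e f) (hcs : IsCS M Ω) (hτ : 0 < τ) (hs : s ≠ 0)
    (hrat : ∀ a b : Fin K, rat c b a = Real.exp (s * ((a : ℝ) - b) / 2)) {x : H →L[ℂ] H}
    (hx : x ∈ M) (a b : Fin K) :
    (e a 0 * part D τ s (s * ((a : ℝ) - b)) x * e 0 b) Ω -
        D.J (star (e a 0 * part D τ s (s * ((a : ℝ) - b)) x * e 0 b) Ω) =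
      ((rat c b 0 * (|s| / (2 * Real.pi)) : ℝ) : ℂ) • e a 0 (f b 0 (vint D
        (fun t => kwin (τ / |s|) t * ph (s * ((a : ℝ) - b)) t) (x Ω))) := by
  set E := s * ((a : ℝ) - b) with hE
  set T := τ / |s| with hT
  set ρ : ℝ := |s| / (2 * Real.pi) with hρ
  have hT0 : 0 < T := div_pos hτ (abs_pos.2 hs)
  have hp := part_mem D hτ hs E hx
  have h1 : (e a 0 * part D τ s E x * e 0 b) Ω =
      (rat c b 0 : ℂ) • e a 0 (f b 0 (part D τ s E x Ω)) := by
    rw [mul_apply_eq_comp, mul_apply_eq_comp, h.e_omega 0 b, map_smul, map_smul,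
      apply_comm (commute_mem hp (h.f_mem b 0))]
  have h2 : D.J (star (e a 0 * part D τ s E x * e 0 b) Ω) =
      (rat c a 0 : ℂ) • e a 0 (f b 0 (D.J (star (part D τ s E x) Ω))) := by
    rw [star_mul, star_mul, h.e_units.star_eq, h.e_units.star_eq, mul_apply_eq_comp,
      mul_apply_eq_comp, h.e_omega 0 a, map_smul, map_smul, J_smul_real,
      apply_comm (commute_mem (star_mem hp) (h.f_mem a 0)), h.J_e D hcs, h.J_f D hcs,
      apply_comm (h.commute a 0 b 0).symm]
  have hgi := P132.Fixed.integrable_gauss hT0 E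
  have h3 : D.J (star (part D τ s E x) Ω) =
      vint D (fun t => (ρ : ℂ) * gauss T E ((t : ℂ) + Complex.I / 2)) (x Ω) := by
    rw [star_part D hτ hs, part_omega D hτ hs,
      show win τ s (-E) = fun t : ℝ => (ρ : ℂ) * conj (gauss T E (t : ℂ)) from
        funext fun t => by rw [P132.Fixed.conj_gauss]; rfl,
      P132.Fixed.vint_const_mul, P132.Fixed.vint_const_mul, J_smul_real]
    congr 1
    exact D.kms x hx T E hT0
  have h4 : part D τ s E x Ω = vint D (fun t => (ρ : ℂ) * gauss T E (t : ℂ)) (x Ω) :=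
    part_omega D hτ hs E x
  have hr : rat c b 0 = rat c a 0 * Real.exp (E / 2) := by
    have hb : (0 : ℝ) < Real.sqrt (c a) := Real.sqrt_pos.2 (h.pos a)
    rw [hE, ← hrat a b, rat, rat, rat]
    field_simp
  rw [h1, h2, h3, h4, P132.Fixed.vint_const_mul, P132.Fixed.vint_const_mul]
  simp only [map_smul, smul_smul, ← Complex.ofReal_mul]
  rw [show rat c a 0 * ρ = rat c b 0 * ρ * Real.exp (-(E / 2)) by
      rw [hr, Real.exp_neg]; field_simp, Complex.ofReal_mul (rat c b 0 * ρ), mul_smul,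
    ← smul_sub, ← map_smul, ← map_smul, ← map_sub, ← map_sub]
  congr 4
  rw [← P132.Fixed.vint_const_mul, ← P132.Fixed.vint_sub_left D hgi]
  · refine congrArg (fun g => vint D g (x Ω)) (funext fun t => ?_)
    have hk := gauss_shift_kwin T E t
    have he : ((Real.exp (E / 2) : ℝ) : ℂ) ≠ 0 := Complex.ofReal_ne_zero.2 (Real.exp_pos _).ne'
    rw [Real.exp_neg, Complex.ofReal_inv]
    rw [sub_eq_iff_eq_add] at hk
    generalize gauss T E ((t : ℂ) + Complex.I / 2) = G at hk ⊢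
    field_simp
    linear_combination hk
  · simp only [P132.Fixed.gauss_shift]
    exact ((P132.Fixed.integrable_gauss hT0 _).const_mul _).const_mul _

/-- The constant of the defect. -/
noncomputable def defC : ℝ := 10 * Real.exp 9

/-- The compression nearly centralises `Ω` over every part of the centre. -/
theorem IsSite.norm_defect_le (h : IsSite M Ω c e f) (hcs : IsCS M Ω) (hτ : 0 < τ) (hτ1 : τ ≤ 1)
    (hs : s ≠ 0) (hsτ : |s| ≤ τ)
    (hrat : ∀ a b : Fin K, rat c b a = Real.exp (s * ((a : ℝ) - b) / 2)) {x : H →L[ℂ] H}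
    (hx : x ∈ M) {z : H →L[ℂ] H} (hz : z ∈ M) (hz' : z ∈ M.commutant) :
    ‖z (iota D τ s e x Ω - D.J (star (iota D τ s e x) Ω))‖ ≤
      defC * (|s| / τ) * ‖x‖ * ‖z Ω‖ := by
  set T := τ / |s| with hT
  have hs0 : 0 < |s| := abs_pos.2 hs
  have hT0 : 0 < T := div_pos hτ hs0
  have hT1 : 1 ≤ T := (one_le_div hs0).2 hsτ
  set ρ : ℝ := |s| / (2 * Real.pi) with hρ
  set ξ := z (corner e f (x Ω)) with hξ
  let I : Fin K → Fin K → H := fun a b => vint D (fun t => kwin T t * ph (s * ((a : ℝ) - b)) t) ξ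
  have hki : ∀ r, Integrable fun t => kwin T t * ph r t := fun r => by
    refine (((integrable_exp_neg_mul_sq (b := 1 / (8 * T ^ 2)) (by positivity)).const_mul
      (Real.exp 9 / T)).mono' ((continuous_kwin T).mul (P132.Fixed.continuous_ph.comp
        (continuous_const.prodMk continuous_id))).aestronglyMeasurable
      (Filter.Eventually.of_forall fun t => ?_))
    rw [norm_mul, P132.Fixed.norm_ph, mul_one]
    refine (norm_kwin_le hT1 t).trans_eq ?_
    congr 2
    field_simp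
    ring
  have hzc : ∀ v, corner e f (z v) = z (corner e f v) := fun v => by
    simp only [corner, mul_apply_eq_comp]
    rw [apply_comm (commute_mem (h.e_mem 0 0) hz'),
      ← apply_comm (commute_mem hz (h.f_mem 0 0))]
  have hze : ∀ a v, z (e a 0 v) = e a 0 (z v) := fun a v =>
    (apply_comm (commute_mem (h.e_mem a 0) hz') v).symm
  have hzf : ∀ a v, z (f a 0 v) = f a 0 (z v) := fun a v =>
    apply_comm (commute_mem hz (h.f_mem a 0)) v
  have hsum : z (iota D τ s e x Ω - D.J (star (iota D τ s e x) Ω)) = ∑ a, ∑ b,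
      e a 0 (f b 0 (((rat c b 0 * ρ : ℝ) : ℂ) •
        z (vint D (fun t => kwin T t * ph (s * ((a : ℝ) - b)) t) (x Ω)))) := by
    simp only [iota, star_sum, sum_apply, P132.Fixed.J_sum, ← Finset.sum_sub_distrib,
      h.defect_entry D hcs hτ hs hrat hx, map_sum, map_smul, hze, hzf]
    rfl
  have hcor : ∀ a b : Fin K, corner e f (((rat c b 0 * ρ : ℝ) : ℂ) •
      z (vint D (fun t => kwin T t * ph (s * ((a : ℝ) - b)) t) (x Ω))) =
      ((rat c b 0 * ρ : ℝ) : ℂ) • I a b := fun a b => by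
    rw [map_smul, hzc, h.corner_vint D hcs (hki _), ← Analytic.central_vint D hcs hz hz' (hki _)]
  have hsq : ‖z (iota D τ s e x Ω - D.J (star (iota D τ s e x) Ω))‖ ^ 2 =
      ∑ b, c b / c 0 * ρ ^ 2 * ∑ a, ‖I a b‖ ^ 2 := by
    rw [hsum, norm_sum_units h, Finset.sum_comm]
    refine Finset.sum_congr rfl fun b _ => ?_
    rw [Finset.mul_sum]
    refine Finset.sum_congr rfl fun a _ => ?_
    rw [hcor, norm_smul, Complex.norm_real, Real.norm_of_nonneg
      (mul_nonneg (h.rat_pos b 0).le (by positivity)), mul_pow, mul_pow, h.rat_sq]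
  set A := √(2 * Real.pi) / |s| * (2 * τ + √(2 * Real.pi)) with hA
  set C₀ := Real.exp 9 / T * ((2 * T * √(2 * Real.pi) + A) / 2) with hC0
  have hI : ∀ b, ∑ a, ‖I a b‖ ^ 2 ≤ (C₀ * ‖ξ‖) ^ 2 := fun b => by
    refine sum_norm_vint_le D (e := fun a : Fin K => s * ((a : ℝ) - b)) (by positivity)
      (fun a => ?_) (continuous_kwin T) (by positivity) (by positivity) (norm_kwin_le hT1) ξ
    have hr := rowBound_freq (T := 2 * T) (K := K) (τ := 2 * τ) (by positivity) hs
      (by rw [hT]; ring) a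
    simp only [freq] at hr
    refine le_trans (le_of_eq (Finset.sum_congr rfl fun b' _ => ?_)) hr
    rw [show (2 * T * (-(s * ((b' : ℝ) - b)) - -(s * ((a : ℝ) - b)))) ^ 2 =
      (2 * T * (s * (b' : ℝ) - s * (a : ℝ))) ^ 2 by ring]
  have hξ' : ‖ξ‖ ≤ ‖x‖ * (√(c 0) * ‖z Ω‖) := by
    have e1 : ξ = e 0 0 (x (z (e 0 0 Ω))) := by
      rw [hξ, corner, mul_apply_eq_comp, ← apply_comm (h.commute 0 0 0 0), hze,
        ← apply_comm (commute_mem hx (h.f_mem 0 0))]
      rw [h.f_omega, h.rat_self, Complex.ofReal_one, one_smul, ← apply_comm (commute_mem hx hz')]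
    rw [e1]
    refine (norm_diag_le h.e_units 0 _).trans ((x.le_opNorm _).trans
      (mul_le_mul_of_nonneg_left (le_of_eq ?_) (norm_nonneg _)))
    rw [← Real.sqrt_sq (norm_nonneg (z (e 0 0 Ω))), h.norm_central hz hz',
      Real.sqrt_mul (h.pos 0).le, Real.sqrt_sq (norm_nonneg _)]
  have hfin : ρ * C₀ ≤ defC * (|s| / τ) := by
    set r := √(2 * Real.pi) with hr
    have hr0 : 0 < r := by positivity
    have hp : 2 * Real.pi = r ^ 2 := (Real.sq_sqrt (by positivity)).symm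
    have hr1 : 1 ≤ r := Real.one_le_sqrt.2 (by nlinarith [Real.pi_gt_three])
    rw [hρ, hC0, hA, hT, hp,
      show |s| / r ^ 2 * (Real.exp 9 / (τ / |s|) * ((2 * (τ / |s|) * r + r / |s| * (2 * τ + r)) / 2))
        = Real.exp 9 * (|s| / τ) * ((4 * τ / r + 1) / 2) by field_simp; ring, defC]
    have hq : 4 * τ / r ≤ 4 * τ := div_le_self (by positivity) hr1
    rw [show 10 * Real.exp 9 * (|s| / τ) = Real.exp 9 * (|s| / τ) * 10 by ring]
    exact mul_le_mul_of_nonneg_left (by linarith) (by positivity)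
  refine pow_le_pow_iff_left₀ (norm_nonneg _) (by unfold defC; positivity) two_ne_zero |>.1 ?_
  rw [hsq]
  refine (Finset.sum_le_sum fun b _ => mul_le_mul_of_nonneg_left (hI b)
    (mul_nonneg (div_nonneg (h.pos b).le (h.pos 0).le) (sq_nonneg _))).trans ?_
  rw [← Finset.sum_mul, ← Finset.sum_mul, ← Finset.sum_div, h.sum_one]
  calc 1 / c 0 * ρ ^ 2 * (C₀ * ‖ξ‖) ^ 2 ≤
        1 / c 0 * ρ ^ 2 * (C₀ * (‖x‖ * (√(c 0) * ‖z Ω‖))) ^ 2 := by
        have := (h.pos 0).le
        gcongr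
    _ = (ρ * C₀ * ‖x‖ * ‖z Ω‖) ^ 2 := by
        have := (h.pos 0).ne'
        rw [show C₀ * (‖x‖ * (√(c 0) * ‖z Ω‖)) = C₀ * ‖x‖ * ‖z Ω‖ * √(c 0) by ring,
          mul_pow (C₀ * ‖x‖ * ‖z Ω‖), Real.sq_sqrt (h.pos 0).le]
        field_simp
    _ ≤ _ := by gcongr

end Vale.Agent.P096.III.Encode
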