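import Vale.Agent.P096.III.Encode.Smear
import Mathlib.Analysis.SpecialFunctions.ImproperIntegrals

/-!
# P096, type III, encoding: the mean of the parts gives the element back

The mean over `a, b < K` of the parts at frequencies `s (a - b)` is the smear of the modular group
by a Gaussian times the Fejér kernel; it tends weakly to the element as `s → 0` and `K s → ∞`, up
to a defect that vanishes with `τ`.
-/

namespace Vale.Agent.P096.III.Encode

open scoped InnerProductSpace ComplexConjugate Topology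
open MeasureTheory
open Vale.Agent.P132 (ModData gauss)
open Vale.Agent.P132.Fixed (gam ph sig)

universe u

/-- The Fejér kernel at spacing `s`. -/
noncomputable def fej (s : ℝ) (K : ℕ) (t : ℝ) : ℝ :=
  ‖trig (freq s K) (fun _ => (1 : ℂ)) t‖ ^ 2 / K

variable {s : ℝ} {K : ℕ}

theorem fej_nonneg (t : ℝ) : 0 ≤ fej s K t := by unfold fej; positivity

theorem continuous_fej : Continuous (fej s K) :=
  ((continuous_trig _ _).norm.pow 2).div_const _

theorem fej_expand (t : ℝ) : ((fej s K t : ℝ) : ℂ) =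
    (K : ℂ)⁻¹ * ∑ a : Fin K, ∑ b : Fin K, ph (s * ((a : ℝ) - b)) t := by
  rw [fej, Complex.ofReal_div, Complex.ofReal_natCast, Complex.ofReal_pow, ofReal_norm_sq,
    div_eq_inv_mul]
  congr 1
  rw [trig, sum_inner, Finset.sum_comm]
  refine Finset.sum_congr rfl fun b _ => ?_
  rw [inner_sum]
  refine Finset.sum_congr rfl fun a _ => ?_
  rw [inner_smul_left, inner_smul_right, P132.Fixed.conj_ph, inner_self_eq_norm_sq_to_K, norm_one,
    RCLike.ofReal_one, one_pow, mul_one]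
  rw [show s * ((a : ℝ) - b) = freq s K a + -freq s K b by simp [freq]; ring, P132.Fixed.ph_add]
  ring

theorem integral_ph_period (hs : 0 < s) (n : ℤ) :
    ∫ t in (-Real.pi / s)..(Real.pi / s), ph (s * (n : ℝ)) t =
      if n = 0 then ((2 * Real.pi / s : ℝ) : ℂ) else 0 := by
  rcases eq_or_ne n 0 with rfl | hn
  · simp only [Int.cast_zero, mul_zero, ph, Complex.ofReal_zero, zero_mul, neg_zero,
      Complex.exp_zero, if_pos]
    rw [intervalIntegral.integral_const, Complex.real_smul, mul_one]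
    congr 1
    ring
  · rw [if_neg hn]
    have hc : -(Complex.I * ((s * (n : ℝ) : ℝ) : ℂ)) ≠ 0 := by
      simp [hs.ne', hn, Complex.I_ne_zero]
    have e : ∀ t : ℝ, ph (s * (n : ℝ)) t =
        Complex.exp (-(Complex.I * ((s * (n : ℝ) : ℝ) : ℂ)) * (t : ℂ)) := fun t => by
      rw [ph, neg_mul]
    simp only [e]
    rw [integral_exp_mul_complex hc, div_eq_zero_iff]
    refine Or.inl (sub_eq_zero.2 (Complex.exp_eq_exp_iff_exists_int.2 ⟨-n, ?_⟩))
    have hs' : (s : ℂ) ≠ 0 := Complex.ofReal_ne_zero.2 hs.ne'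
    push_cast
    field_simp
    ring

theorem integral_fej_period (hs : 0 < s) (hK : K ≠ 0) :
    ∫ t in (-Real.pi / s)..(Real.pi / s), fej s K t = 2 * Real.pi / s := by
  apply Complex.ofReal_injective
  rw [← intervalIntegral.integral_ofReal]
  simp only [fej_expand]
  have hi : ∀ r, IntervalIntegrable (fun t => ph r t) volume (-Real.pi / s) (Real.pi / s) :=
    fun r => (P132.Fixed.continuous_ph.comp (continuous_const.prodMk continuous_id))
      |>.intervalIntegrable _ _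
  have hi2 : ∀ a : Fin K, IntervalIntegrable (fun t => ∑ b : Fin K, ph (s * ((a : ℝ) - b)) t)
      volume (-Real.pi / s) (Real.pi / s) := fun a =>
    (continuous_finsetSum _ fun b _ => P132.Fixed.continuous_ph.comp
      (continuous_const.prodMk continuous_id)).intervalIntegrable _ _
  rw [intervalIntegral.integral_const_mul, intervalIntegral.integral_finsetSum fun a _ => hi2 a]
  have e : ∀ a : Fin K, ∫ t in (-Real.pi / s)..(Real.pi / s), ∑ b : Fin K,
      ph (s * ((a : ℝ) - b)) t = ((2 * Real.pi / s : ℝ) : ℂ) := fun a => by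
    rw [intervalIntegral.integral_finsetSum fun (b : Fin K) _ => hi (s * ((a : ℝ) - b)),
      Finset.sum_eq_single a]
    · simpa using integral_ph_period hs 0
    · intro b _ hb
      have := integral_ph_period hs ((a : ℕ) - (b : ℕ) : ℤ)
      rw [if_neg (by omega)] at this
      simpa using this
    · simp
  simp only [e, Finset.sum_const, Finset.card_univ, Fintype.card_fin, nsmul_eq_mul]
  have : (K : ℂ) ≠ 0 := Nat.cast_ne_zero.2 hK
  field_simp

theorem fej_mul_sq_le (t : ℝ) (ht : |s * t| ≤ Real.pi) :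
    fej s K t * (s * t) ^ 2 ≤ Real.pi ^ 2 / K := by
  set z := ph s t with hz
  have hpow : ∀ a : ℕ, ph (s * (a : ℝ)) t = z ^ a := fun a => by
    rw [hz, ph, ph, ← Complex.exp_nat_mul]
    congr 1
    push_cast
    ring
  have hsum : (z - 1) * trig (freq s K) (fun _ => (1 : ℂ)) t = z ^ K - 1 := by
    simp only [trig, freq]
    rw [Fin.sum_univ_eq_sum_range (fun a => ph (s * (a : ℝ)) t • (1 : ℂ))]
    simp only [hpow, smul_eq_mul, mul_one]
    exact mul_geom_sum z K
  have hz1 : 2 / Real.pi * |s * t| ≤ ‖z - 1‖ := by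
    have e : z = Complex.exp (Complex.I * ((-(s * t) : ℝ) : ℂ)) := by
      rw [hz, ph]; congr 1; push_cast; ring
    rw [e, Complex.norm_exp_I_mul_ofReal_sub_one, norm_mul, Real.norm_ofNat, Real.norm_eq_abs]
    have h := Real.mul_abs_le_abs_sin (x := -(s * t) / 2) (by
      rw [abs_div, abs_neg, abs_two]; linarith [Real.pi_pos])
    rw [abs_div, abs_neg, abs_two] at h
    calc 2 / Real.pi * |s * t| = 2 * (2 / Real.pi * (|s * t| / 2)) := by ring
      _ ≤ _ := mul_le_mul_of_nonneg_left h zero_le_two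
  have hn : ‖z - 1‖ * ‖trig (freq s K) (fun _ => (1 : ℂ)) t‖ ≤ 2 := by
    rw [← norm_mul, hsum]
    refine (norm_sub_le _ _).trans ?_
    rw [norm_pow, hz, P132.Fixed.norm_ph, one_pow, norm_one]
    norm_num
  have h2 : ‖trig (freq s K) (fun _ => (1 : ℂ)) t‖ * |s * t| ≤ Real.pi := by
    have := (mul_le_mul_of_nonneg_right hz1 (norm_nonneg _)).trans hn
    rw [div_mul_eq_mul_div, div_mul_eq_mul_div, div_le_iff₀ Real.pi_pos] at this
    linarith
  rw [fej, div_mul_eq_mul_div, ← sq_abs (s * t), ← mul_pow]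
  gcongr

theorem integral_inv_sq_add {r : ℝ} (hr : 0 < r) :
    (∫ t : ℝ, (t ^ 2 + r ^ 2)⁻¹) = Real.pi / r ∧ Integrable fun t : ℝ => (t ^ 2 + r ^ 2)⁻¹ := by
  have e : ∀ t : ℝ, (t ^ 2 + r ^ 2)⁻¹ = (r ^ 2)⁻¹ * (1 + (r⁻¹ * t) ^ 2)⁻¹ := fun t => by
    rw [← mul_inv]
    congr 1
    field_simp
    ring
  simp only [e]
  refine ⟨?_, (integrable_inv_one_add_sq.comp_mul_left' (inv_ne_zero hr.ne')).const_mul _⟩
  rw [integral_const_mul, Measure.integral_comp_mul_left (fun t => (1 + t ^ 2)⁻¹) r⁻¹,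
    integral_univ_inv_one_add_sq, inv_inv, abs_of_pos hr, smul_eq_mul]
  field_simp

theorem sq_div_sqrt_two_mul (w t : ℝ) : (t / (√2 * w)) ^ 2 = (t / w) ^ 2 / 2 := by
  rw [div_pow, mul_pow, Real.sq_sqrt zero_le_two, div_pow]
  ring

/-- The window at `T = θ / s`. -/
noncomputable def gwin (θ s : ℝ) (t : ℝ) : ℝ := Real.exp (-(t / (θ / s)) ^ 2 / 2)

theorem gwin_nonneg (θ t : ℝ) : 0 ≤ gwin θ s t := (Real.exp_pos _).le

theorem gwin_le_one (θ t : ℝ) : gwin θ s t ≤ 1 :=
  Real.exp_le_one_iff.2 (by linarith [sq_nonneg (t / (θ / s))])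

theorem integrable_gwin_fej {θ : ℝ} (hθ : 0 < θ) (hs : 0 < s) :
    Integrable fun t => gwin θ s t * fej s K t := by
  simpa only [gwin, fej, mul_div_assoc] using
    (integrable_gram (div_pos hθ hs) (freq s K) (fun _ => (1 : ℂ))).div_const (K : ℝ)

theorem integral_gwin_fej_le {θ : ℝ} (hθ : 0 < θ) (hθ1 : θ ≤ 1) (hs : 0 < s) (hK : K ≠ 0) :
    s / (2 * Real.pi) * ∫ t, gwin θ s t * fej s K t ≤ 2 := by
  have hK0 : (0 : ℝ) < K := Nat.cast_pos.2 (Nat.pos_of_ne_zero hK)
  have h := integral_gram_le (div_pos hθ hs)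
    (rowBound_freq (K := K) hθ.le hs.ne' (by rw [abs_of_pos hs])) (fun _ => (1 : ℂ))
  simp only [norm_one, one_pow, Finset.sum_const, Finset.card_univ, Fintype.card_fin,
    nsmul_eq_mul, mul_one] at h
  have e : ∫ t, gwin θ s t * fej s K t =
      (∫ t, Real.exp (-(t / (θ / s)) ^ 2 / 2) *
        ‖trig (freq s K) (fun _ => (1 : ℂ)) t‖ ^ 2) / K := by
    rw [← integral_div]
    refine integral_congr_ae (Filter.Eventually.of_forall fun t => ?_)
    simp only [fej, gwin]
    ring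
  rw [e]
  refine (mul_le_mul_of_nonneg_left (div_le_div_of_nonneg_right h hK0.le) (by positivity)).trans ?_
  set q := √(2 * Real.pi) with hq
  have hq0 : 0 < q := by positivity
  have hq1 : 1 ≤ q := Real.one_le_sqrt.2 (by nlinarith [Real.pi_gt_three])
  have hp : 2 * Real.pi = q ^ 2 := (Real.sq_sqrt (by positivity)).symm
  rw [abs_of_pos hs, hp, show s / q ^ 2 * (q / s * (θ + q) * K / K) = θ / q + 1 by field_simp]
  linarith [div_le_self hθ.le hq1]

/-- The mass a window leaves outside the middle period. -/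
noncomputable def leak (τ : ℝ) : ℝ := Real.exp (-(Real.pi ^ 2 / (4 * τ ^ 2)))

theorem gwin_far {τ : ℝ} (hτ : 0 < τ) (hs : 0 < s) {t : ℝ} (ht : Real.pi / s ≤ |t|) :
    gwin τ s t ≤ leak τ * gwin (√2 * τ) s t := by
  simp only [gwin, leak, ← Real.exp_add, Real.exp_le_exp]
  rw [mul_div_assoc, sq_div_sqrt_two_mul]
  have h1 : Real.pi ^ 2 ≤ (s * t) ^ 2 := by
    rw [← sq_abs (s * t), abs_mul, abs_of_pos hs]
    refine pow_le_pow_left₀ Real.pi_pos.le ?_ 2
    rw [div_le_iff₀ hs] at ht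
    linarith
  have h2 : Real.pi ^ 2 / (4 * τ ^ 2) ≤ (s * t) ^ 2 / (4 * τ ^ 2) := by gcongr
  linarith [show (t / (τ / s)) ^ 2 = 4 * ((s * t) ^ 2 / (4 * τ ^ 2)) by field_simp]

/-- The kernel of the slice. -/
noncomputable def kfun (τ s : ℝ) (K : ℕ) (t : ℝ) : ℝ :=
  s / (2 * Real.pi) * (gwin τ s t * fej s K t)

theorem kfun_nonneg {τ : ℝ} (hs : 0 < s) (t : ℝ) : 0 ≤ kfun τ s K t :=
  mul_nonneg (by positivity) (mul_nonneg (gwin_nonneg _ _) (fej_nonneg t))

theorem integrable_kfun {τ : ℝ} (hτ : 0 < τ) (hs : 0 < s) : Integrable (kfun τ s K) :=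
  (integrable_gwin_fej hτ hs).const_mul _

theorem integral_kfun_le {τ : ℝ} (hτ : 0 < τ) (hτ1 : τ ≤ 1) (hs : 0 < s) (hK : K ≠ 0) :
    ∫ t, kfun τ s K t ≤ 2 := by
  simpa only [kfun, integral_const_mul] using integral_gwin_fej_le hτ hτ1 hs hK

theorem kfun_far {τ : ℝ} (hτ : 0 < τ) (hs : 0 < s) {t : ℝ} (ht : Real.pi / s ≤ |t|) :
    kfun τ s K t ≤ s / (2 * Real.pi) * leak τ * (gwin (√2 * τ) s t * fej s K t) := by
  have := mul_le_mul_of_nonneg_right (gwin_far hτ hs ht) (fej_nonneg (s := s) (K := K) t)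
  calc kfun τ s K t ≤ s / (2 * Real.pi) * (leak τ * gwin (√2 * τ) s t * fej s K t) :=
        mul_le_mul_of_nonneg_left this (by positivity)
    _ = _ := by ring

theorem sqrt_two_mul_le {τ : ℝ} (hτ2 : τ ≤ 1 / 2) (hτ : 0 < τ) : √2 * τ ≤ 1 := by
  have h2 : √(2 : ℝ) ≤ 2 := by rw [Real.sqrt_le_left] <;> norm_num
  nlinarith [Real.sqrt_nonneg 2]

theorem integral_leak_le {τ : ℝ} (hτ : 0 < τ) (hτ2 : τ ≤ 1 / 2) (hs : 0 < s) (hK : K ≠ 0) :
    ∫ t, s / (2 * Real.pi) * leak τ * (gwin (√2 * τ) s t * fej s K t) ≤ 2 * leak τ := by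
  rw [integral_const_mul]
  calc s / (2 * Real.pi) * leak τ * ∫ t, gwin (√2 * τ) s t * fej s K t
      = leak τ * (s / (2 * Real.pi) * ∫ t, gwin (√2 * τ) s t * fej s K t) := by ring
    _ ≤ leak τ * 2 := mul_le_mul_of_nonneg_left
        (integral_gwin_fej_le (by positivity) (sqrt_two_mul_le hτ2 hτ) hs hK) (Real.exp_pos _).le
    _ = _ := by ring

theorem abs_mass_sub_one_le {τ : ℝ} (hτ : 0 < τ) (hτ2 : τ ≤ 1 / 2) (hs : 0 < s) (hK : K ≠ 0) :
    |(∫ t, kfun τ s K t) - 1| ≤ 2 * leak τ + Real.pi ^ 2 / (2 * τ ^ 2 * K) := by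
  set I := Set.Ioc (-Real.pi / s) (Real.pi / s) with hI
  set ρ := s / (2 * Real.pi) with hρ
  have hρ0 : 0 ≤ ρ := by positivity
  have hle : -Real.pi / s ≤ Real.pi / s := by rw [neg_div]; linarith [div_pos Real.pi_pos hs]
  have hPi : Integrable (I.indicator fun t => ρ * fej s K t) :=
    ((continuous_fej.const_mul ρ).integrableOn_Ioc).integrable_indicator measurableSet_Ioc
  have h1 : ∫ t, I.indicator (fun t => ρ * fej s K t) t = 1 := by
    rw [integral_indicator measurableSet_Ioc, integral_const_mul,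
      ← intervalIntegral.integral_of_le hle, integral_fej_period hs hK, hρ]
    field_simp
  have hJ : Integrable (I.indicator fun _ : ℝ => ρ * Real.pi ^ 2 / (2 * τ ^ 2 * K)) :=
    (integrable_indicator_iff measurableSet_Ioc).2 (integrableOn_const (by simp [I]))
  have hL := (integrable_gwin_fej (K := K) (by positivity : 0 < √2 * τ) hs).const_mul (ρ * leak τ)
  rw [← h1, ← integral_sub (integrable_kfun hτ hs) hPi, ← Real.norm_eq_abs]
  refine (norm_integral_le_of_norm_le (hL.add hJ) (Filter.Eventually.of_forall fun t => ?_)).trans ?_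
  · rw [Pi.add_apply, Real.norm_eq_abs]
    have h5 : 0 ≤ ρ * leak τ * (gwin (√2 * τ) s t * fej s K t) :=
      mul_nonneg (mul_nonneg hρ0 (Real.exp_pos _).le) (mul_nonneg (gwin_nonneg _ _) (fej_nonneg t))
    by_cases ht : t ∈ I
    · rw [Set.indicator_of_mem ht, Set.indicator_of_mem ht]
      have hst : |s * t| ≤ Real.pi := by
        rw [abs_mul, abs_of_pos hs]
        have h' : |t| ≤ Real.pi / s :=
          abs_le.2 ⟨by have := ht.1; rw [neg_div] at this; linarith, ht.2⟩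
        rw [le_div_iff₀ hs] at h'
        linarith
      have hy : 1 - gwin τ s t ≤ (s * t) ^ 2 / (2 * τ ^ 2) := by
        have := Real.add_one_le_exp (-(t / (τ / s)) ^ 2 / 2)
        have e : (s * t) ^ 2 / (2 * τ ^ 2) = (t / (τ / s)) ^ 2 / 2 := by field_simp
        simp only [gwin]
        linarith
      have hd : ρ * fej s K t - kfun τ s K t ≤ ρ * Real.pi ^ 2 / (2 * τ ^ 2 * K) := by
        have h2 := mul_le_mul_of_nonneg_left hy (fej_nonneg (s := s) (K := K) t)
        have h3 := div_le_div_of_nonneg_right (fej_mul_sq_le (s := s) (K := K) t hst)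
          (by positivity : (0 : ℝ) ≤ 2 * τ ^ 2)
        calc ρ * fej s K t - kfun τ s K t = ρ * (fej s K t * (1 - gwin τ s t)) := by
              rw [kfun]; ring
          _ ≤ ρ * (Real.pi ^ 2 / K / (2 * τ ^ 2)) := mul_le_mul_of_nonneg_left
              (h2.trans (le_of_eq_of_le (by ring) h3)) hρ0
          _ = _ := by ring
      have hk : kfun τ s K t ≤ ρ * fej s K t := mul_le_mul_of_nonneg_left
        (mul_le_of_le_one_left (fej_nonneg t) (gwin_le_one _ _)) hρ0
      rw [abs_sub_comm, abs_of_nonneg (by linarith)]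
      linarith
    · rw [Set.indicator_of_notMem ht, Set.indicator_of_notMem ht, sub_zero, add_zero,
        abs_of_nonneg (kfun_nonneg hs t)]
      refine kfun_far hτ hs ?_
      by_contra h
      rw [not_le, abs_lt] at h
      exact ht ⟨by rw [neg_div]; exact h.1, h.2.le⟩
  · simp only [Pi.add_apply]
    rw [integral_add hL hJ, integral_indicator measurableSet_Ioc, setIntegral_const,
      Real.volume_real_Ioc_of_le hle, smul_eq_mul]
    refine add_le_add (integral_leak_le hτ hτ2 hs hK) (le_of_eq ?_)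
    rw [hρ]
    field_simp
    ring

/-- The majorant of the kernel away from the origin. -/
theorem kfun_tail {τ r : ℝ} (hτ : 0 < τ) (hs : 0 < s) (hr : 0 < r) (hK : K ≠ 0) {t : ℝ}
    (ht : r ≤ |t|) :
    kfun τ s K t ≤ s / (2 * Real.pi) * leak τ * (gwin (√2 * τ) s t * fej s K t) +
      s / (2 * Real.pi) * (2 * Real.pi ^ 2 / (K * s ^ 2)) * (t ^ 2 + r ^ 2)⁻¹ := by
  have hK0 : (0 : ℝ) < K := Nat.cast_pos.2 (Nat.pos_of_ne_zero hK)
  have hA : 0 ≤ s / (2 * Real.pi) * leak τ * (gwin (√2 * τ) s t * fej s K t) :=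
    mul_nonneg (mul_nonneg (by positivity) (Real.exp_pos _).le)
      (mul_nonneg (gwin_nonneg _ _) (fej_nonneg t))
  rcases le_total |t| (Real.pi / s) with hp | hp
  · have ht0 : 0 < t ^ 2 := by rw [← sq_abs]; exact pow_pos (hr.trans_le ht) 2
    have hst : |s * t| ≤ Real.pi := by
      rw [abs_mul, abs_of_pos hs]
      rw [le_div_iff₀ hs] at hp
      linarith
    have hst2 : 0 < (s * t) ^ 2 := by rw [mul_pow]; exact mul_pos (pow_pos hs 2) ht0
    have hf : fej s K t ≤ Real.pi ^ 2 / K / (s * t) ^ 2 :=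
      (le_div_iff₀ hst2).2 (fej_mul_sq_le t hst)
    have hrt : r ^ 2 ≤ t ^ 2 := by rw [← sq_abs t]; exact pow_le_pow_left₀ hr.le ht 2
    calc kfun τ s K t ≤ s / (2 * Real.pi) * fej s K t := mul_le_mul_of_nonneg_left
          (mul_le_of_le_one_left (fej_nonneg t) (gwin_le_one _ _)) (by positivity)
      _ ≤ s / (2 * Real.pi) * (Real.pi ^ 2 / K / (s * t) ^ 2) :=
          mul_le_mul_of_nonneg_left hf (by positivity)
      _ ≤ s / (2 * Real.pi) * (2 * Real.pi ^ 2 / (K * s ^ 2)) * (t ^ 2 + r ^ 2)⁻¹ := by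
          rw [mul_assoc, ← div_eq_mul_inv, div_div, div_div]
          refine mul_le_mul_of_nonneg_left ?_ (by positivity)
          rw [div_le_div_iff₀ (mul_pos hK0 hst2) (by positivity)]
          have := mul_le_mul_of_nonneg_left hrt
            (by positivity : (0 : ℝ) ≤ Real.pi ^ 2 * (K * s ^ 2))
          nlinarith
      _ ≤ _ := le_add_of_nonneg_left hA
  · exact (kfun_far hτ hs hp).trans (le_add_of_nonneg_right (by positivity))

/-- The kernel acts nearly as the point mass at zero. -/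
theorem norm_integral_kfun_sub_le {τ r B ω : ℝ} (hτ : 0 < τ) (hτ2 : τ ≤ 1 / 2) (hs : 0 < s)
    (hK : K ≠ 0) (hr : 0 < r) (hω : 0 ≤ ω) {g : ℝ → ℂ} (hg : Continuous g)
    (hB : ∀ t, ‖g t‖ ≤ B) (hmod : ∀ t, |t| < r → ‖g t - g 0‖ ≤ ω) :
    ‖(∫ t, (kfun τ s K t : ℂ) * g t) - g 0‖ ≤ 2 * ω + B * (6 * leak τ +
      2 * (Real.pi ^ 2 / (K * s * r)) + Real.pi ^ 2 / (2 * τ ^ 2 * K)) := by
  have hB0 : 0 ≤ B := (norm_nonneg _).trans (hB 0)
  have hki := integrable_kfun (K := K) hτ hs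
  obtain ⟨hI1, hI2⟩ := integral_inv_sq_add hr
  have hd : ∀ t, ‖g t - g 0‖ ≤ 2 * B := fun t =>
    (norm_sub_le _ _).trans (by linarith [hB t, hB 0])
  have hi1 : Integrable fun t => (kfun τ s K t : ℂ) * (g t - g 0) :=
    hki.ofReal.mul_bdd (c := 2 * B) (hg.sub continuous_const).aestronglyMeasurable
      (Filter.Eventually.of_forall hd)
  have hi2 : Integrable fun t => (kfun τ s K t : ℂ) * g 0 := hki.ofReal.mul_const _
  have hsplit : (∫ t, (kfun τ s K t : ℂ) * g t) - g 0 =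
      (∫ t, (kfun τ s K t : ℂ) * (g t - g 0)) + (((∫ t, kfun τ s K t) - 1 : ℝ) : ℂ) * g 0 := by
    rw [show (fun t => (kfun τ s K t : ℂ) * g t) =
      fun t => (kfun τ s K t : ℂ) * (g t - g 0) + (kfun τ s K t : ℂ) * g 0 from
        funext fun t => by ring, integral_add hi1 hi2, integral_mul_const, integral_complex_ofReal,
      Complex.ofReal_sub, Complex.ofReal_one, sub_mul, one_mul]
    ring
  have hL := (integrable_gwin_fej (K := K) (by positivity : 0 < √2 * τ) hs).const_mul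
    (s / (2 * Real.pi) * leak τ)
  have hC := hI2.const_mul (s / (2 * Real.pi) * (2 * Real.pi ^ 2 / (K * s ^ 2)))
  have hval : ‖∫ t, (kfun τ s K t : ℂ) * (g t - g 0)‖ ≤
      2 * ω + 2 * B * (2 * leak τ + Real.pi ^ 2 / (K * s * r)) := by
    refine (norm_integral_le_of_norm_le ((hki.const_mul ω).add ((hL.add hC).const_mul (2 * B)))
      (Filter.Eventually.of_forall fun t => ?_)).trans ?_
    · rw [norm_mul, Complex.norm_real, Real.norm_of_nonneg (kfun_nonneg hs t)]
      simp only [Pi.add_apply]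
      rcases lt_or_ge |t| r with h | h
      · refine (mul_le_mul_of_nonneg_left (hmod t h) (kfun_nonneg hs t)).trans ?_
        rw [mul_comm (kfun τ s K t)]
        exact le_add_of_nonneg_right (mul_nonneg (by positivity) (add_nonneg
          (mul_nonneg (mul_nonneg (by positivity) (Real.exp_pos _).le)
            (mul_nonneg (gwin_nonneg _ _) (fej_nonneg t))) (by positivity)))
      · refine (mul_le_mul_of_nonneg_left (hd t) (kfun_nonneg hs t)).trans ?_
        rw [mul_comm (kfun τ s K t)]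
        exact le_add_of_nonneg_of_le (mul_nonneg hω (kfun_nonneg hs t))
          (mul_le_mul_of_nonneg_left (kfun_tail hτ hs hr hK h) (by positivity))
    · simp only [Pi.add_apply]
      have hLC : Integrable fun t => s / (2 * Real.pi) * leak τ * (gwin (√2 * τ) s t * fej s K t) +
          s / (2 * Real.pi) * (2 * Real.pi ^ 2 / (K * s ^ 2)) * (t ^ 2 + r ^ 2)⁻¹ := hL.add hC
      rw [integral_add (hki.const_mul ω) (hLC.const_mul (2 * B)), integral_const_mul ω,
        integral_const_mul (2 * B), integral_add hL hC, integral_const_mul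
          (s / (2 * Real.pi) * (2 * Real.pi ^ 2 / (K * s ^ 2))), hI1]
      refine add_le_add ?_ (mul_le_mul_of_nonneg_left
        (add_le_add (integral_leak_le hτ hτ2 hs hK) (le_of_eq ?_)) (by positivity))
      · rw [mul_comm 2 ω]
        exact mul_le_mul_of_nonneg_left (integral_kfun_le hτ (by linarith) hs hK) hω
      · have hK0 : (K : ℝ) ≠ 0 := Nat.cast_ne_zero.2 hK
        field_simp
  have hm : ‖(((∫ t, kfun τ s K t) - 1 : ℝ) : ℂ) * g 0‖ ≤
      (2 * leak τ + Real.pi ^ 2 / (2 * τ ^ 2 * K)) * B := by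
    rw [norm_mul, Complex.norm_real, Real.norm_eq_abs]
    exact mul_le_mul (abs_mass_sub_one_le hτ hτ2 hs hK) (hB 0) (norm_nonneg _)
      ((abs_nonneg _).trans (abs_mass_sub_one_le hτ hτ2 hs hK))
  rw [hsplit]
  refine (norm_add_le _ _).trans ((add_le_add hval hm).trans (le_of_eq ?_))
  ring

variable {H : Type u} [NormedAddCommGroup H] [InnerProductSpace ℂ H] [CompleteSpace H]
  {M : VonNeumannAlgebra H} {Ω : H} (D : ModData M Ω)

/-- The mean of all entries of the Toeplitz matrix. -/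
noncomputable def slice (τ s : ℝ) (K : ℕ) (x : H →L[ℂ] H) : H →L[ℂ] H :=
  (K : ℂ)⁻¹ • ∑ a : Fin K, ∑ b : Fin K, part D τ s (s * ((a : ℝ) - b)) x

theorem inner_slice {τ : ℝ} (hτ : 0 < τ) (hs : 0 < s) (x : H →L[ℂ] H) (u v : H) :
    ⟪u, slice D τ s K x v⟫_ℂ = ∫ t, (kfun τ s K t : ℂ) * ⟪u, sig D t x v⟫_ℂ := by
  set g : ℝ → ℂ := fun t => ⟪u, sig D t x v⟫_ℂ with hg
  have hgc : Continuous g := continuous_const.inner
    (P132.Fixed.continuous_sig_comp D continuous_id continuous_const x)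
  have hint : ∀ a b : Fin K, Integrable fun t =>
      win τ s (s * ((a : ℝ) - b)) t * g t := fun a b =>
    (integrable_win hτ hs.ne' _).mul_bdd (c := ‖u‖ * (‖x‖ * ‖v‖)) hgc.aestronglyMeasurable
      (Filter.Eventually.of_forall fun t => (norm_inner_le_norm _ _).trans
        (mul_le_mul_of_nonneg_left (P132.Fixed.norm_sig_le D t x v) (norm_nonneg _)))
  have e : ∀ a b : Fin K, ⟪u, part D τ s (s * ((a : ℝ) - b)) x v⟫_ℂ =
      ∫ t, win τ s (s * ((a : ℝ) - b)) t * g t := fun a b => by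
    rw [part_apply D hτ hs.ne', ← integral_inner
      (P132.Fixed.integrable_smul_sig D (integrable_win hτ hs.ne' _) x v)]
    simp only [inner_smul_right, g]
  simp only [slice, smul_apply, sum_apply, inner_smul_right, inner_sum, e,
    ← integral_finsetSum _ fun b _ => hint _ b]
  rw [← integral_finsetSum _ fun a _ => integrable_finsetSum _ fun b _ => hint a b,
    ← integral_const_mul]
  refine integral_congr_ae (Filter.Eventually.of_forall fun t => ?_)
  simp only [kfun, Complex.ofReal_mul, fej_expand, win, abs_of_pos hs, P132.Fixed.gauss_eq,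
    P132.Fixed.gam_ofReal, Finset.mul_sum, Finset.sum_mul, gwin, g]
  exact Finset.sum_congr rfl fun a _ => Finset.sum_congr rfl fun b _ => by ring

/-- The slice tends weakly to the element. -/
theorem exists_slice_near {η : ℝ} (hη : 0 < η) :
    ∃ τ : ℝ, 0 < τ ∧ τ ≤ 1 / 2 ∧
      ∀ (H : Type u) [NormedAddCommGroup H] [InnerProductSpace ℂ H] [CompleteSpace H]
        (M : VonNeumannAlgebra H) (Ω : H) (D : ModData M Ω) (x : H →L[ℂ] H) (u v : H),
      ∀ η₂ : ℝ, 0 < η₂ → ∃ L₀ s₀ : ℝ, 0 < L₀ ∧ 0 < s₀ ∧ ∀ (K : ℕ) (s : ℝ), K ≠ 0 → 0 < s →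
        s ≤ s₀ → L₀ ≤ K * s →
          ‖⟪u, slice D τ s K x v⟫_ℂ - ⟪u, x v⟫_ℂ‖ ≤ η * (‖u‖ * (‖x‖ * ‖v‖)) + η₂ := by
  set τ := min (1 / 2) (√η / 3) with hτd
  have hτ : 0 < τ := lt_min (by norm_num) (div_pos (Real.sqrt_pos.2 hη) three_pos)
  have hτ2 : τ ≤ 1 / 2 := min_le_left _ _
  have hleak : 6 * leak τ ≤ η := by
    have h1 := Real.add_one_le_exp (Real.pi ^ 2 / (4 * τ ^ 2))
    have h2 : leak τ ≤ 4 * τ ^ 2 / Real.pi ^ 2 := by
      rw [leak, Real.exp_neg, inv_le_comm₀ (Real.exp_pos _) (by positivity), inv_div]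
      linarith
    have h3 : τ ^ 2 ≤ η / 9 := by
      refine (pow_le_pow_left₀ hτ.le (min_le_right _ _) 2).trans_eq ?_
      rw [div_pow, Real.sq_sqrt hη.le]
      norm_num
    have h4 : 4 * τ ^ 2 / Real.pi ^ 2 ≤ 4 * τ ^ 2 / 9 := by
      gcongr
      nlinarith [Real.pi_gt_three]
    linarith
  refine ⟨τ, hτ, hτ2, fun H _ _ _ M Ω D x u v η₂ hη₂ => ?_⟩
  set B := ‖u‖ * (‖x‖ * ‖v‖) with hB
  have hB0 : 0 ≤ B := by positivity
  set g : ℝ → ℂ := fun t => ⟪u, sig D t x v⟫_ℂ with hg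
  have hgc : Continuous g := continuous_const.inner
    (P132.Fixed.continuous_sig_comp D continuous_id continuous_const x)
  have hgB : ∀ t, ‖g t‖ ≤ B := fun t => (norm_inner_le_norm _ _).trans
    (mul_le_mul_of_nonneg_left (P132.Fixed.norm_sig_le D t x v) (norm_nonneg _))
  have hg0 : g 0 = ⟪u, x v⟫_ℂ := by simp [g, P132.Fixed.sig_apply, D.U_zero]
  obtain ⟨r, hr, hmod⟩ := Metric.continuousAt_iff.1 (hgc.continuousAt (x := 0)) (η₂ / 4)
    (by positivity)
  set L₀ := max 1 (8 * Real.pi ^ 2 * (B + 1) / (η₂ * r)) with hL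
  set s₀ := η₂ * τ ^ 2 / (4 * Real.pi ^ 2 * (B + 1)) with hs0
  refine ⟨L₀, s₀, lt_max_of_lt_left one_pos, by positivity, fun K s hK hs hss hKs => ?_⟩
  have hK0 : (0 : ℝ) < K := Nat.cast_pos.2 (Nat.pos_of_ne_zero hK)
  have hmain := norm_integral_kfun_sub_le (K := K) hτ hτ2 hs hK hr
    (by positivity : (0 : ℝ) ≤ η₂ / 4) hgc hgB fun t ht => by
      rw [← dist_eq_norm]
      exact (hmod (by rw [Real.dist_0_eq_abs]; exact ht)).le
  rw [inner_slice D hτ hs, ← hg0]
  refine hmain.trans ?_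
  have hKinv : (K : ℝ)⁻¹ ≤ s := by
    rw [inv_le_iff_one_le_mul₀ hK0]
    linarith [(le_max_left _ _).trans hKs]
  have hB1 : B ≤ B + 1 := le_add_of_nonneg_right zero_le_one
  have hp2 : 0 < Real.pi ^ 2 := by positivity
  have h1 : B * (2 * (Real.pi ^ 2 / (K * s * r))) ≤ η₂ / 4 := by
    have hL' : 8 * Real.pi ^ 2 * (B + 1) ≤ K * s * (η₂ * r) := by
      have := (le_max_right _ _).trans hKs
      rwa [div_le_iff₀ (by positivity)] at this
    rw [show B * (2 * (Real.pi ^ 2 / (K * s * r))) = 2 * B * Real.pi ^ 2 / (K * s * r) by ring,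
      div_le_iff₀ (by positivity)]
    nlinarith [mul_le_mul_of_nonneg_left hB1 hp2.le]
  have h2 : B * (Real.pi ^ 2 / (2 * τ ^ 2 * K)) ≤ η₂ / 4 := by
    have h3 : Real.pi ^ 2 * B * s ≤ η₂ * τ ^ 2 / 4 := by
      have := mul_le_mul_of_nonneg_left hss (by positivity : (0 : ℝ) ≤ Real.pi ^ 2 * (B + 1))
      rw [hs0, show Real.pi ^ 2 * (B + 1) * (η₂ * τ ^ 2 / (4 * Real.pi ^ 2 * (B + 1))) =
        η₂ * τ ^ 2 / 4 by field_simp] at this
      nlinarith [mul_le_mul_of_nonneg_right (mul_le_mul_of_nonneg_left hB1 hp2.le) hs.le]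
    calc B * (Real.pi ^ 2 / (2 * τ ^ 2 * K)) = Real.pi ^ 2 * B * (K : ℝ)⁻¹ / (2 * τ ^ 2) := by ring
      _ ≤ Real.pi ^ 2 * B * s / (2 * τ ^ 2) := by gcongr
      _ ≤ η₂ * τ ^ 2 / 4 / (2 * τ ^ 2) := by gcongr
      _ = η₂ / 8 := by field_simp; ring
      _ ≤ _ := by linarith
  have h6 := mul_le_mul_of_nonneg_right hleak hB0
  linarith

end Vale.Agent.P096.III.Encode
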