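import Vale.Agent.P096.III.Encode.Iota
import Vale.Agent.P096.III.Encode.Kernel

/-!
# P096, type III, encoding: far sites and the slice of the compression
-/

namespace Vale.Agent.P096.III.Encode

open scoped InnerProductSpace ComplexConjugate Topology
open Filter
open Vale.Agent.P132 (ModData IsCS)

universe u

variable {H : Type u} [NormedAddCommGroup H] [InnerProductSpace ℂ H] [CompleteSpace H]
  {M N : VonNeumannAlgebra H} {Ω : H} {F : Frame N Ω}

theorem weight_den_pos (j k : ℕ) :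
    (0 : ℝ) < ∑ b : Fin (2 ^ k), Real.exp (-((b : ℕ) : ℝ) / 2 ^ j) :=
  Finset.sum_pos (fun _ _ => Real.exp_pos _) ⟨⟨0, Nat.two_pow_pos k⟩, Finset.mem_univ _⟩

theorem weight_pos (j k : ℕ) (a : Fin (2 ^ k)) : 0 < weight j k a :=
  div_pos (Real.exp_pos _) (weight_den_pos j k)

theorem sum_weight (j k : ℕ) : ∑ a, weight j k a = 1 := by
  simp only [weight, ← Finset.sum_div]
  exact div_self (weight_den_pos j k).ne'

theorem rat_weight (j k : ℕ) (a b : Fin (2 ^ k)) :
    rat (weight j k) b a = Real.exp (1 / 2 ^ j * ((a : ℝ) - b) / 2) := by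
  have hd := weight_den_pos j k
  rw [rat, weight, weight, Real.sqrt_div (Real.exp_pos _).le, Real.sqrt_div (Real.exp_pos _).le,
    ← Real.exp_half, ← Real.exp_half, div_div_div_cancel_right₀ (Real.sqrt_pos.2 hd).ne',
    ← Real.exp_sub]
  congr 1
  ring

theorem isSite_frame (F : Frame N Ω) (j k r : ℕ) :
    IsSite N Ω (weight j k) (F.e j k r) (F.f j k r) where
  pos := weight_pos j k
  sum_one := sum_weight j k
  e_units := F.sites.e_units j k r
  f_units := F.sites.f_units j k r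
  e_mem := F.sites.e_mem j k r
  f_mem := F.sites.f_mem j k r
  rel := F.sites.rel j k r

theorem isSite_pinned (hP : Pinned M N Ω F) (j k r : ℕ) :
    IsSite M Ω (weight j k) (F.e j k r) (F.f j k r) where
  pos := weight_pos j k
  sum_one := sum_weight j k
  e_units := F.sites.e_units j k r
  f_units := F.sites.f_units j k r
  e_mem := hP.e_mem j k r
  f_mem := hP.f_mem j k r
  rel := F.sites.rel j k r

/-- Limits on `N Ω` of uniformly bounded operators extend to every vector. -/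
theorem tendsto_zero_of_dense (F : Frame N Ω) (A : ℕ → H → H) (C : ℝ)
    (hC : ∀ r v w, ‖A r v - A r w‖ ≤ C * ‖v - w‖)
    (hd : ∀ y ∈ N, Tendsto (fun r => A r (y Ω)) atTop (𝓝 0)) (v : H) :
    Tendsto (fun r => A r v) atTop (𝓝 0) := by
  rw [NormedAddGroup.tendsto_nhds_zero]
  intro ε hε
  obtain ⟨y, hy, hyv⟩ := F.grps.cs.cyclic v (ε / (2 * (|C| + 1))) (by positivity)
  filter_upwards [NormedAddGroup.tendsto_nhds_zero.1 (hd y hy) (ε / 2) (half_pos hε)] with r hr
  have h1 : ‖A r v - A r (y Ω)‖ ≤ ε / 2 := by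
    refine (hC r _ _).trans ?_
    rw [norm_sub_rev]
    refine (mul_le_mul ((le_abs_self C).trans (le_add_of_nonneg_right zero_le_one)) hyv
      (norm_nonneg _) (by positivity)).trans (le_of_eq ?_)
    field_simp
  calc ‖A r v‖ ≤ ‖A r v - A r (y Ω)‖ + ‖A r (y Ω)‖ := norm_le_norm_sub_add _ _
    _ < ε := by linarith

variable (F)

/-- The corner units of far sites on both sides agree. -/
theorem tendsto_e_sub_f (j k : ℕ) (v : H) :
    Tendsto (fun r => F.e j k r 0 0 v - F.f j k r 0 0 v) atTop (𝓝 0) := by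
  refine tendsto_zero_of_dense F (fun r v => F.e j k r 0 0 v - F.f j k r 0 0 v) 2
    (fun r v w => ?_) (fun y hy => ?_) v
  · have h := isSite_frame F j k r
    rw [show F.e j k r 0 0 v - F.f j k r 0 0 v - (F.e j k r 0 0 w - F.f j k r 0 0 w) =
      F.e j k r 0 0 (v - w) - F.f j k r 0 0 (v - w) by rw [map_sub, map_sub]; abel]
    refine (norm_sub_le _ _).trans ?_
    linarith [norm_diag_le h.e_units 0 (v - w), norm_diag_le h.f_units 0 (v - w)]
  · refine (F.sites.away j k 0 0 y hy Ω).congr fun r => ?_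
    have h := isSite_frame F j k r
    rw [sub_apply, mul_apply_eq_comp, mul_apply_eq_comp, h.e_omega, h.rat_self,
      Complex.ofReal_one, one_smul]
    congr 1
    exact apply_comm (commute_mem hy (h.f_mem 0 0)) _

variable {F}

/-- Far sites asymptotically commute with `M`. -/
theorem tendsto_commutator (hP : Pinned M N Ω F) (j k : ℕ) {x : H →L[ℂ] H} (hx : x ∈ M) (v : H) :
    Tendsto (fun r => F.e j k r 0 0 (x v) - x (F.e j k r 0 0 v)) atTop (𝓝 0) := by
  have h1 := tendsto_e_sub_f F j k (x v)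
  have h2 := (x.continuous.tendsto 0).comp (tendsto_e_sub_f F j k v)
  rw [map_zero] at h2
  have h3 := h1.sub h2
  rw [sub_zero] at h3
  refine h3.congr fun r => ?_
  simp only [Function.comp_apply, map_sub]
  rw [apply_comm (commute_mem hx ((isSite_pinned hP j k r).f_mem 0 0))]
  abel

variable (F)

theorem tendsto_norm_e (j k : ℕ) (v : H) :
    Tendsto (fun r => ‖F.e j k r 0 0 v‖) atTop (𝓝 (√(weight j k 0) * ‖v‖)) := by
  set c0 := weight j k 0 with hc0
  have hc0' : 0 < c0 := weight_pos j k 0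
  refine (Metric.tendsto_atTop.2 fun ε hε => ?_)
  obtain ⟨y, hy, hyv⟩ := F.grps.cs.cyclic v (ε / (4 * (√c0 + 1))) (by positivity)
  have hsq : Tendsto (fun r => ‖F.e j k r 0 0 (y Ω)‖ ^ 2) atTop (𝓝 (c0 * ‖y Ω‖ ^ 2)) := by
    have key : ∀ a, Tendsto (fun r => weight j k a * ‖F.e j k r 0 0 (y Ω)‖ ^ 2 -
        c0 * ‖F.e j k r a a (y Ω)‖ ^ 2) atTop (𝓝 0) := by
      intro a
      set q := rat (weight j k) 0 a with hq
      have hq0 : 0 < q := (isSite_frame F j k 0).rat_pos 0 a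
      have hd : Tendsto (fun r => ‖F.e j k r 0 0 (y Ω)‖ - q * ‖F.e j k r a a (y Ω)‖) atTop
          (𝓝 0) := by
        refine squeeze_zero_norm (a := fun r =>
          ‖(F.e j k r a 0 * y - y * F.e j k r a 0) Ω‖ +
            q * ‖(F.e j k r a a * y - y * F.e j k r a a) Ω‖) (fun r => ?_) ?_
        · have h := isSite_frame F j k r
          have h1 : ‖y (F.e j k r a 0 Ω)‖ = q * ‖y (F.e j k r a a Ω)‖ := by
            have hyf : ∀ i i', ∀ w, y (F.f j k r i i' w) = F.f j k r i i' (y w) := fun i i' w =>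
              apply_comm (commute_mem hy (h.f_mem i i')) w
            rw [h.e_omega a 0, map_smul, norm_smul, Complex.norm_real,
              Real.norm_of_nonneg (h.rat_pos 0 a).le, hyf, norm_unit h.f_units 0 a, ← hyf,
              h.f_omega, h.rat_self, Complex.ofReal_one, one_smul, hq]
          have h2 : ‖F.e j k r 0 0 (y Ω)‖ = ‖F.e j k r a 0 (y Ω)‖ :=
            (norm_unit h.e_units a 0 _).symm
          simp only [sub_apply, mul_apply_eq_comp, Real.norm_eq_abs]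
          rw [h2]
          calc |‖F.e j k r a 0 (y Ω)‖ - q * ‖F.e j k r a a (y Ω)‖|
              = |(‖F.e j k r a 0 (y Ω)‖ - ‖y (F.e j k r a 0 Ω)‖) +
                  q * (‖y (F.e j k r a a Ω)‖ - ‖F.e j k r a a (y Ω)‖)| := by
                rw [h1]; ring_nf
            _ ≤ _ := (abs_add_le _ _).trans (add_le_add (abs_norm_sub_norm_le _ _) (by
                rw [abs_mul, abs_of_pos hq0, norm_sub_rev (F.e j k r a a (y Ω))]
                exact mul_le_mul_of_nonneg_left (abs_norm_sub_norm_le _ _) hq0.le))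
        · simpa using ((F.sites.away j k a 0 y hy Ω).norm.add
            ((F.sites.away j k a a y hy Ω).norm.const_mul q))
      have hb := hd.norm.const_mul (weight j k a * ((1 + q) * ‖y Ω‖))
      rw [norm_zero, mul_zero] at hb
      refine squeeze_zero_norm (fun r => ?_) hb
      have h := isSite_frame F j k r
      have hca : c0 = weight j k a * q ^ 2 := by
        rw [hq, h.rat_sq, mul_div_cancel₀ _ (h.pos a).ne']
      rw [hca, show weight j k a * ‖F.e j k r 0 0 (y Ω)‖ ^ 2 -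
        weight j k a * q ^ 2 * ‖F.e j k r a a (y Ω)‖ ^ 2 = weight j k a *
          ((‖F.e j k r 0 0 (y Ω)‖ + q * ‖F.e j k r a a (y Ω)‖) *
            (‖F.e j k r 0 0 (y Ω)‖ - q * ‖F.e j k r a a (y Ω)‖)) by ring, norm_mul, norm_mul,
        Real.norm_of_nonneg (h.pos a).le,
        Real.norm_of_nonneg (add_nonneg (norm_nonneg _) (mul_nonneg hq0.le (norm_nonneg _))),
        ← mul_assoc]
      refine mul_le_mul_of_nonneg_right (mul_le_mul_of_nonneg_left ?_ (h.pos a).le) (norm_nonneg _)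
      rw [add_mul, one_mul]
      exact add_le_add (norm_diag_le h.e_units 0 _)
        (mul_le_mul_of_nonneg_left (norm_diag_le h.e_units a _) hq0.le)
    have hs := tendsto_finsetSum Finset.univ fun a _ => key a
    rw [Finset.sum_const_zero] at hs
    refine tendsto_sub_nhds_zero_iff.1 (hs.congr fun r => ?_)
    rw [Finset.sum_sub_distrib, ← Finset.sum_mul, sum_weight, one_mul, ← Finset.mul_sum,
      sum_norm_diag (isSite_frame F j k r).e_units]
  have hn : Tendsto (fun r => ‖F.e j k r 0 0 (y Ω)‖) atTop (𝓝 (√c0 * ‖y Ω‖)) := by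
    have h := (Real.continuous_sqrt.tendsto _).comp hsq
    rw [Real.sqrt_mul hc0'.le, Real.sqrt_sq (norm_nonneg _)] at h
    refine h.congr fun r => ?_
    simp [Function.comp_apply, Real.sqrt_sq (norm_nonneg _)]
  obtain ⟨r₀, hr₀⟩ := Metric.tendsto_atTop.1 hn (ε / 2) (half_pos hε)
  refine ⟨r₀, fun r hr => ?_⟩
  have h1 := hr₀ r hr
  rw [Real.dist_eq] at h1 ⊢
  have h2 : |‖F.e j k r 0 0 v‖ - ‖F.e j k r 0 0 (y Ω)‖| ≤ ‖v - y Ω‖ := by
    refine (abs_norm_sub_norm_le _ _).trans ?_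
    rw [← map_sub]
    exact norm_diag_le (isSite_frame F j k r).e_units 0 _
  have h3 : |√c0 * ‖y Ω‖ - √c0 * ‖v‖| ≤ √c0 * ‖v - y Ω‖ := by
    rw [← mul_sub, abs_mul, abs_of_nonneg (Real.sqrt_nonneg _), norm_sub_rev v]
    exact mul_le_mul_of_nonneg_left (abs_norm_sub_norm_le _ _) (Real.sqrt_nonneg _)
  rw [norm_sub_rev] at hyv
  have h4 : ‖v - y Ω‖ * (√c0 + 1) ≤ ε / 4 := by
    have := mul_le_mul_of_nonneg_right hyv (by positivity : (0 : ℝ) ≤ √c0 + 1)
    refine this.trans_eq ?_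
    field_simp
  obtain ⟨ha, hb⟩ := abs_le.1 h2
  obtain ⟨hc, hd⟩ := abs_le.1 h3
  obtain ⟨he, hf⟩ := abs_lt.1 h1
  refine abs_lt.2 ⟨?_, ?_⟩ <;> nlinarith [norm_nonneg (v - y Ω), Real.sqrt_nonneg c0]

theorem inner_eq_norms (x y : H) : ⟪x, y⟫_ℂ =
    ((‖x + y‖ ^ 2 : ℝ) - (‖x - y‖ ^ 2 : ℝ) + ((‖x - Complex.I • y‖ ^ 2 : ℝ) -
      (‖x + Complex.I • y‖ ^ 2 : ℝ)) * Complex.I) / 4 := by
  rw [inner_eq_sum_norm_sq_div_four]
  simp [RCLike.ofReal_eq_complex_ofReal]

theorem inner_diag {k : ℕ} {e : Fin (2 ^ k) → Fin (2 ^ k) → H →L[ℂ] H} (he : IsUnits e) (u v : H) :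
    ⟪e 0 0 u, e 0 0 v⟫_ℂ = ⟪u, e 0 0 v⟫_ℂ := by
  rw [← ContinuousLinearMap.adjoint_inner_right, ← ContinuousLinearMap.star_eq_adjoint,
    ← mul_apply_eq_comp, he.star_eq, he.mul, if_pos rfl]

/-- The corner unit tends weakly to its weight. -/
theorem tendsto_inner_e (j k : ℕ) (u v : H) :
    Tendsto (fun r => ⟪u, F.e j k r 0 0 v⟫_ℂ) atTop (𝓝 ((weight j k 0 : ℂ) * ⟪u, v⟫_ℂ)) := by
  have hsq : ∀ w, Tendsto (fun r => ((‖F.e j k r 0 0 w‖ ^ 2 : ℝ) : ℂ)) atTop
      (𝓝 ((weight j k 0 * ‖w‖ ^ 2 : ℝ) : ℂ)) := fun w => by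
    refine (Complex.continuous_ofReal.tendsto _).comp ?_
    have h := (tendsto_norm_e F j k w).pow 2
    rwa [mul_pow, Real.sq_sqrt (weight_pos j k 0).le] at h
  have h := ((((hsq (u + v)).sub (hsq (u - v))).add
    (((hsq (u - Complex.I • v)).sub (hsq (u + Complex.I • v))).mul_const Complex.I)).div_const 4)
  have e1 : ∀ r, ⟪u, F.e j k r 0 0 v⟫_ℂ =
      ((‖F.e j k r 0 0 (u + v)‖ ^ 2 : ℝ) - (‖F.e j k r 0 0 (u - v)‖ ^ 2 : ℝ) +
        ((‖F.e j k r 0 0 (u - Complex.I • v)‖ ^ 2 : ℝ) -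
          (‖F.e j k r 0 0 (u + Complex.I • v)‖ ^ 2 : ℝ)) * Complex.I) / 4 := fun r => by
    rw [← inner_diag (isSite_frame F j k r).e_units, inner_eq_norms, map_add, map_sub, map_sub,
      map_add, map_smul]
  simp only [e1]
  convert h using 2
  rw [inner_eq_norms]
  push_cast
  ring

/-- The vectors of the slice. -/
noncomputable def sliceOp (j k r : ℕ) : H →L[ℂ] H :=
  ∑ i, (((√(((2 ^ k : ℕ) : ℝ) * weight j k i))⁻¹ : ℝ) : ℂ) • F.f j k r 0 i

theorem sliceOp_mem (j k r : ℕ) : sliceOp F j k r ∈ N.commutant :=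
  sum_mem fun i _ => N.commutant.toStarSubalgebra.smul_mem (F.sites.f_mem j k r 0 i) _

theorem norm_sliceOp_sq_le (j k r : ℕ) :
    ‖sliceOp F j k r‖ ^ 2 ≤ (2 : ℝ) ^ k * Real.exp ((2 : ℝ) ^ k / 2 ^ j) := by
  have h := isSite_frame F j k r
  set K : ℝ := ((2 ^ k : ℕ) : ℝ) with hK
  have hK0 : 0 < K := by simp [hK]
  have hK2 : K = (2 : ℝ) ^ k := by simp [hK]
  set β : Fin (2 ^ k) → ℝ := fun i => (√(K * weight j k i))⁻¹ with hβ
  have hb : ∀ i, β i ^ 2 ≤ Real.exp ((2 : ℝ) ^ k / 2 ^ j) := by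
    intro i
    rw [hβ, inv_pow, Real.sq_sqrt (mul_nonneg hK0.le (h.pos i).le), weight,
      mul_div_assoc', inv_div, div_le_iff₀ (mul_pos hK0 (Real.exp_pos _))]
    calc ∑ b : Fin (2 ^ k), Real.exp (-((b : ℕ) : ℝ) / 2 ^ j) ≤ ∑ _b : Fin (2 ^ k), (1 : ℝ) :=
          Finset.sum_le_sum fun b _ => Real.exp_le_one_iff.2
            (div_nonpos_of_nonpos_of_nonneg (by simp) (by positivity))
      _ = 1 * K := by simp [hK]
      _ ≤ Real.exp ((2 : ℝ) ^ k / 2 ^ j + -((i : ℕ) : ℝ) / 2 ^ j) * K := by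
          refine mul_le_mul_of_nonneg_right (Real.one_le_exp ?_) hK0.le
          rw [← add_div, ← hK2]
          refine div_nonneg ?_ (by positivity)
          have : ((i : ℕ) : ℝ) ≤ K := by rw [hK]; exact_mod_cast i.2.le
          linarith
      _ = _ := by rw [Real.exp_add]; ring
  rw [← norm_star (sliceOp F j k r)]
  have key : ∀ v, ‖star (sliceOp F j k r) v‖ ^ 2 ≤
      (2 : ℝ) ^ k * Real.exp ((2 : ℝ) ^ k / 2 ^ j) * ‖v‖ ^ 2 := fun v => by
    have e : star (sliceOp F j k r) v = ∑ i, F.f j k r i 0 (((β i : ℝ) : ℂ) • v) := by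
      rw [sliceOp, star_sum, sum_apply]
      refine Finset.sum_congr rfl fun i _ => ?_
      rw [star_smul, smul_apply, h.f_units.star_eq, map_smul, RCLike.star_def, Complex.conj_ofReal]
    rw [e, norm_sum_unit h.f_units]
    calc ∑ i, ‖F.f j k r 0 0 (((β i : ℝ) : ℂ) • v)‖ ^ 2
        ≤ ∑ _i : Fin (2 ^ k), Real.exp ((2 : ℝ) ^ k / 2 ^ j) * ‖v‖ ^ 2 :=
          Finset.sum_le_sum fun i _ => by
            rw [map_smul, norm_smul, mul_pow, Complex.norm_real, Real.norm_eq_abs, sq_abs]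
            exact mul_le_mul (hb i) (pow_le_pow_left₀ (norm_nonneg _)
              (norm_diag_le h.f_units 0 v) 2) (sq_nonneg _) (Real.exp_pos _).le
      _ = _ := by simp; ring
  have hle : ‖star (sliceOp F j k r)‖ ≤ √((2 : ℝ) ^ k * Real.exp ((2 : ℝ) ^ k / 2 ^ j)) :=
    ContinuousLinearMap.opNorm_le_bound _ (Real.sqrt_nonneg _) fun v => by
      rw [← Real.sqrt_sq (norm_nonneg v), ← Real.sqrt_mul (by positivity)]
      exact Real.le_sqrt_of_sq_le (key v)
  exact (pow_le_pow_left₀ (norm_nonneg _) hle 2).trans_eq (Real.sq_sqrt (by positivity))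

theorem sliceOp_omega (j k r : ℕ) {d : H →L[ℂ] H} (hd : d ∈ N.commutant) :
    d (sliceOp F j k r Ω) = (((√(((2 ^ k : ℕ) : ℝ) * weight j k 0))⁻¹ : ℝ) : ℂ) •
      ∑ i, F.e j k r i 0 (d Ω) := by
  have h := isSite_frame F j k r
  rw [sliceOp, sum_apply, map_sum, Finset.smul_sum]
  refine Finset.sum_congr rfl fun i _ => ?_
  rw [smul_apply, map_smul, h.f_omega, map_smul, ← apply_comm (commute_mem (h.e_mem i 0) hd),
    smul_smul, ← Complex.ofReal_mul]
  congr 2
  have hi := (Real.sqrt_pos.2 (h.pos i)).ne'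
  have h0 := (Real.sqrt_pos.2 (h.pos 0)).ne'
  have hK : √(((2 ^ k : ℕ) : ℝ)) ≠ 0 := (Real.sqrt_pos.2 (by simp)).ne'
  rw [rat, Real.sqrt_mul (Nat.cast_nonneg _), Real.sqrt_mul (Nat.cast_nonneg _)]
  field_simp

/-- The norm of a sliced vector. -/
theorem norm_slice_vec (j k r : ℕ) {d : H →L[ℂ] H} (hd : d ∈ N.commutant) :
    ‖d (sliceOp F j k r Ω)‖ = ‖F.e j k r 0 0 (d Ω)‖ / √(weight j k 0) := by
  have h := isSite_frame F j k r
  rw [sliceOp_omega F j k r hd, norm_smul, Complex.norm_real, Real.norm_of_nonneg (by positivity),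
    ← Real.sqrt_sq (norm_nonneg (∑ i, F.e j k r i 0 (d Ω))), norm_sum_unit h.e_units,
    Finset.sum_const, Finset.card_univ, Fintype.card_fin, nsmul_eq_mul,
    Real.sqrt_mul (Nat.cast_nonneg _), Real.sqrt_mul (Nat.cast_nonneg _),
    Real.sqrt_sq (norm_nonneg _)]
  have h0 := (Real.sqrt_pos.2 (h.pos 0)).ne'
  have hK : √(((2 ^ k : ℕ) : ℝ)) ≠ 0 := (Real.sqrt_pos.2 (by simp)).ne'
  field_simp

theorem tendsto_norm_slice_vec (j k : ℕ) {d : H →L[ℂ] H} (hd : d ∈ N.commutant) :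
    Tendsto (fun r => ‖d (sliceOp F j k r Ω)‖) atTop (𝓝 ‖d Ω‖) := by
  have h := (tendsto_norm_e F j k (d Ω)).div_const √(weight j k 0)
  rw [mul_div_cancel_left₀ _ (Real.sqrt_pos.2 (weight_pos j k 0)).ne'] at h
  exact h.congr fun r => (norm_slice_vec F j k r hd).symm

/-- The compression seen through the slice. -/
theorem inner_slice_vec (D : ModData M Ω) {τ s : ℝ} (j k r : ℕ) {d : H →L[ℂ] H}
    (hd : d ∈ N.commutant) (x : H →L[ℂ] H) :
    ⟪d (sliceOp F j k r Ω), iota D τ s (F.e j k r) x (d (sliceOp F j k r Ω))⟫_ℂ =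
      (weight j k 0 : ℂ)⁻¹ *
        ⟪F.e j k r 0 0 (d Ω), slice D τ s (2 ^ k) x (F.e j k r 0 0 (d Ω))⟫_ℂ := by
  have h := isSite_frame F j k r
  set v := d Ω with hv
  set e := F.e j k r with he
  have h1 : ∀ b : Fin (2 ^ k), e 0 b (∑ i, e i 0 v) = e 0 0 v := fun b => by
    rw [map_sum, Finset.sum_eq_single b (fun i _ hi => ?_) (by simp)]
    · rw [← mul_apply_eq_comp, h.e_units.mul, if_pos rfl]
    · rw [← mul_apply_eq_comp, h.e_units.mul, if_neg (Ne.symm hi), zero_apply]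
  have h2 : ∀ (a : Fin (2 ^ k)) (w : H), ⟪∑ i, e i 0 v, e a 0 w⟫_ℂ = ⟪e 0 0 v, w⟫_ℂ := fun a w => by
    rw [← h1 a, ← h.e_units.star_eq 0 a, ContinuousLinearMap.star_eq_adjoint,
      ContinuousLinearMap.adjoint_inner_right]
  rw [sliceOp_omega F j k r hd, map_smul, inner_smul_left, inner_smul_right, Complex.conj_ofReal,
    ← mul_assoc, ← Complex.ofReal_mul, ← mul_inv, ← sq,
    Real.sq_sqrt (mul_nonneg (Nat.cast_nonneg _) (h.pos 0).le)]
  simp only [iota, sum_apply, mul_apply_eq_comp, inner_sum, h1, h2, slice, smul_apply,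
    inner_smul_right, ← he, ← hv]
  push_cast
  ring

/-- The compression seen through far slices tends to the slice of the element. -/
theorem tendsto_inner_slice_vec (hP : Pinned M N Ω F) (D : ModData M Ω) {τ s : ℝ} (hτ : 0 < τ)
    (hs : s ≠ 0) (j k : ℕ) {d : H →L[ℂ] H} (hd : d ∈ N.commutant) {x : H →L[ℂ] H} (hx : x ∈ M) :
    Tendsto (fun r => ⟪d (sliceOp F j k r Ω), iota D τ s (F.e j k r) x (d (sliceOp F j k r Ω))⟫_ℂ)
      atTop (𝓝 ⟪d Ω, slice D τ s (2 ^ k) x (d Ω)⟫_ℂ) := by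
  set v := d Ω
  set S := slice D τ s (2 ^ k) x with hS
  have hSm : S ∈ M := M.toStarSubalgebra.smul_mem (sum_mem fun a _ => sum_mem fun b _ =>
    part_mem D hτ hs _ hx) _
  have h1 := tendsto_inner_e F j k v (S v)
  have h2 : Tendsto (fun r => ⟪F.e j k r 0 0 v, F.e j k r 0 0 (S v) - S (F.e j k r 0 0 v)⟫_ℂ)
      atTop (𝓝 0) := by
    have h3 := (tendsto_commutator hP j k hSm v).norm.const_mul ‖v‖
    rw [norm_zero, mul_zero] at h3
    refine squeeze_zero_norm (fun r => (norm_inner_le_norm _ _).trans ?_) h3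
    exact mul_le_mul_of_nonneg_right (norm_diag_le (isSite_frame F j k r).e_units 0 v)
      (norm_nonneg _)
  have h4 := (h1.sub h2).const_mul (weight j k 0 : ℂ)⁻¹
  rw [sub_zero, inv_mul_cancel_left₀ (Complex.ofReal_ne_zero.2 (weight_pos j k 0).ne')] at h4
  refine h4.congr fun r => ?_
  rw [inner_slice_vec F D j k r hd, inner_sub_right, inner_diag (isSite_frame F j k r).e_units,
    sub_sub_cancel]

end Vale.Agent.P096.III.Encode
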