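import Vale.Agent.P096.III.Defs
import Vale.Agent.P132.Modular.Exports

/-!
# P096, type III, Encode: an almost centralising self-adjoint element is a sum of two unitaries

The defect `D x = x Ω - J (x* Ω)` obeys `D (a b) = a (D b) + J b* J (D a)`. With
`S = √(1 - c²/4)` this gives `(S + J S J) (D S) = D (S²) = -D (c²)/4`, and `S + J S J` is bounded
below, so `u = c/2 + i S` is almost centralising with the same centre-valued bound.
-/

namespace Vale.Agent.P096.III.Encode

open scoped InnerProductSpace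
open Vale.Agent.P132 (IsCS ModData)
open Vale.Agent.P132.Modular (conjOp conjOp_apply conjOp_mem)

universe u

variable {H : Type u} [NormedAddCommGroup H] [InnerProductSpace ℂ H] [CompleteSpace H]
variable {M : VonNeumannAlgebra H} {Ω : H} (D : ModData M Ω)

/-- The defect of centralising. -/
noncomputable def defect (x : H →L[ℂ] H) : H := x Ω - D.J (star x Ω)

theorem defect_add (a b : H →L[ℂ] H) : defect D (a + b) = defect D a + defect D b := by
  simp only [defect, add_apply, star_add, D.J_add]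
  abel

theorem defect_smul (t : ℂ) (a : H →L[ℂ] H) : defect D (t • a) = t • defect D a := by
  simp only [defect, star_smul, smul_apply, D.J_smul, smul_sub, Complex.star_def, Complex.conj_conj]

theorem defect_one : defect D 1 = 0 := by
  rw [defect, star_one, one_apply_eq_self, D.J_omega, sub_self]

theorem defect_mul {a b : H →L[ℂ] H} (ha : a ∈ M) (hb : b ∈ M) :
    defect D (a * b) = a (defect D b) + conjOp D (star b) (defect D a) := by
  have h := VonNeumannAlgebra.mem_commutant_iff.1 (conjOp_mem D (star_mem hb)) a ha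
  have h2 : a (D.J (star b Ω)) = conjOp D (star b) (a Ω) := by
    have h3 := congrArg (fun T : H →L[ℂ] H => T Ω) h
    simp only [mul_apply_eq_comp, conjOp_apply, D.J_omega] at h3 ⊢
    exact h3
  simp only [defect, star_mul, mul_apply_eq_comp, map_sub, h2, conjOp_apply, D.J_invol]
  abel

theorem two_sub_le {S : H →L[ℂ] H} {r : ℝ} (hS : ‖S - 1‖ ≤ r) (v : H) :
    (2 - 2 * r) * ‖v‖ ≤ ‖S v + conjOp D S v‖ := by
  have h1 : ‖S v - v‖ ≤ r * ‖v‖ := by
    have h := (S - 1).le_opNorm v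
    rw [sub_apply, one_apply_eq_self] at h
    exact h.trans (mul_le_mul_of_nonneg_right hS (norm_nonneg v))
  have h2 : ‖conjOp D S v - v‖ ≤ r * ‖v‖ := by
    have h := (S - 1).le_opNorm (D.J v)
    rw [sub_apply, one_apply_eq_self, P132.Fixed.norm_J] at h
    rw [conjOp_apply]
    conv_lhs => arg 1; arg 2; rw [← D.J_invol v]
    rw [← P132.Fixed.J_sub, P132.Fixed.norm_J]
    exact h.trans (mul_le_mul_of_nonneg_right hS (norm_nonneg v))
  have h3 : (2 : ℝ) * ‖v‖ ≤ ‖S v + conjOp D S v‖ + (‖S v - v‖ + ‖conjOp D S v - v‖) := by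
    rw [show (2 : ℝ) * ‖v‖ = ‖(S v + conjOp D S v) - ((S v - v) + (conjOp D S v - v))‖ by
      rw [show (S v + conjOp D S v) - ((S v - v) + (conjOp D S v - v)) = (2 : ℝ) • v by
        rw [two_smul]; abel, norm_smul, Real.norm_two]]
    exact (norm_sub_le _ _).trans (add_le_add le_rfl (norm_add_le _ _))
  linarith

/-- The root `√(1 - c²/4)`. -/
noncomputable def root (c : H →L[ℂ] H) : H →L[ℂ] H := cfc (fun t : ℝ => √(1 - t ^ 2 / 4)) c

theorem root_spec {c : H →L[ℂ] H} (hc : c ∈ M) (hs : star c = c) (hn : ‖c‖ ≤ 3 / 2) :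
    root c ∈ M ∧ star (root c) = root c ∧ Commute (root c) c ∧
      root c * root c = 1 - (4 : ℂ)⁻¹ • (c * c) ∧ ‖root c - 1‖ ≤ 17 / 50 := by
  have ha : IsSelfAdjoint c := hs
  have hsp : ∀ t ∈ spectrum ℝ c, t ^ 2 ≤ 9 / 4 := fun t ht => by
    have h := (norm_apply_le_norm_cfc (fun s : ℝ => s) c ht (by fun_prop) ha)
    rw [cfc_id' ℝ c ha, Real.norm_eq_abs] at h
    nlinarith [abs_le.1 (h.trans hn)]
  refine ⟨?_, (cfc_predicate _ c : IsSelfAdjoint (root c)).star_eq,
    (Commute.refl c).cfc_real _, ?_, ?_⟩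
  · show root c ∈ (M : Set (H →L[ℂ] H))
    rw [← VonNeumannAlgebra.centralizer_centralizer M]
    intro y hy
    exact ((show Commute c y from (hy c hc)).cfc_real _).eq.symm
  · rw [root, ← cfc_mul _ _ c (by fun_prop) (by fun_prop)]
    have e : (1 : H →L[ℂ] H) - (4 : ℂ)⁻¹ • (c * c) = cfc (fun t : ℝ => 1 - (4 : ℝ)⁻¹ * (t * t)) c := by
      rw [cfc_sub (fun _ : ℝ => (1 : ℝ)) (fun t => (4 : ℝ)⁻¹ * (t * t)) c, cfc_const_one ℝ c,
        cfc_const_mul (4 : ℝ)⁻¹ (fun t => t * t) c, cfc_mul (fun t : ℝ => t) (fun t => t) c,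
        cfc_id' ℝ c ha, ← algebraMap_smul ℂ ((4 : ℝ)⁻¹), Complex.coe_algebraMap]
      norm_num
    rw [e]
    refine cfc_congr fun t ht => ?_
    rw [Real.mul_self_sqrt (by nlinarith [hsp t ht])]
    ring
  · rw [root, ← cfc_const_one ℝ c, ← cfc_sub _ _ c (by fun_prop) (by fun_prop)]
    refine norm_cfc_le (by norm_num) fun t ht => ?_
    have h1 := hsp t ht
    have h2 : (33 / 50 : ℝ) ≤ √(1 - t ^ 2 / 4) := Real.le_sqrt_of_sq_le (by nlinarith)
    have h3 : √(1 - t ^ 2 / 4) ≤ 1 := Real.sqrt_le_one.2 (by nlinarith)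
    rw [Real.norm_eq_abs, abs_le]
    constructor <;> linarith

/-- An almost centralising self-adjoint element is the sum of an almost centralising unitary and
its adjoint. -/
theorem exists_unitary_halves (_hcs : IsCS M Ω) {c : H →L[ℂ] H} (hc : c ∈ M) (hs : star c = c)
    (hn : ‖c‖ ≤ 3 / 2) {δ : ℝ} (hδ : 0 ≤ δ)
    (hd : ∀ z, InCentre M z → ‖z (c Ω - D.J (c Ω))‖ ≤ δ * ‖z Ω‖) :
    ∃ u ∈ M, u ∈ unitary (H →L[ℂ] H) ∧ c = u + star u ∧ ∀ z, InCentre M z →
      ‖z (u Ω - D.J (star u Ω))‖ ≤ 2 * δ * ‖z Ω‖ ∧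
        ‖z (star u Ω - D.J (u Ω))‖ ≤ 2 * δ * ‖z Ω‖ := by
  obtain ⟨hSM, hSs, hSc, hS2, hS1⟩ := root_spec (M := M) hc hs hn
  set S := root c
  have key : ∀ z, InCentre M z → ‖z (defect D S)‖ ≤ δ * ‖z Ω‖ := by
    intro z hz
    have hzc : ∀ w : H, z (c w) = c (z w) := fun w =>
      (congrArg (fun T : H →L[ℂ] H => T w) (VonNeumannAlgebra.mem_commutant_iff.1 hz.2 c hc)).symm
    have hzS : ∀ w : H, z (S w) = S (z w) := fun w =>
      (congrArg (fun T : H →L[ℂ] H => T w) (VonNeumannAlgebra.mem_commutant_iff.1 hz.2 S hSM)).symm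
    have hzJ : ∀ T ∈ M, ∀ w : H, z (conjOp D T w) = conjOp D T (z w) := fun T hT w =>
      congrArg (fun A : H →L[ℂ] H => A w)
        (VonNeumannAlgebra.mem_commutant_iff.1 (conjOp_mem D hT) z hz.1)
    have hDc : ‖z (defect D c)‖ ≤ δ * ‖z Ω‖ := by rw [defect, hs]; exact hd z hz
    have h1 := defect_mul D hSM hSM
    rw [hSs, hS2, sub_eq_add_neg, ← neg_smul, defect_add, defect_one, defect_smul, zero_add,
      defect_mul D hc hc, hs] at h1
    have h2 : S (z (defect D S)) + conjOp D S (z (defect D S)) =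
        -(4 : ℂ)⁻¹ • (c (z (defect D c)) + conjOp D c (z (defect D c))) := by
      rw [← hzc, ← hzS, ← hzJ S hSM, ← hzJ c hc, ← map_add, ← h1, map_smul, map_add]
    have h3 := two_sub_le D hS1 (z (defect D S))
    have h4 : ‖S (z (defect D S)) + conjOp D S (z (defect D S))‖ ≤
        4⁻¹ * (3 / 2 * ‖z (defect D c)‖ + 3 / 2 * ‖z (defect D c)‖) := by
      rw [h2, norm_smul, norm_neg, norm_inv, RCLike.norm_ofNat]
      refine mul_le_mul_of_nonneg_left ((norm_add_le _ _).trans (add_le_add ?_ ?_)) (by norm_num)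
      · exact (c.le_opNorm _).trans (mul_le_mul_of_nonneg_right hn (norm_nonneg _))
      · rw [conjOp_apply, P132.Fixed.norm_J]
        refine (c.le_opNorm _).trans ?_
        rw [P132.Fixed.norm_J]
        exact mul_le_mul_of_nonneg_right hn (norm_nonneg _)
    have h5 : 0 ≤ δ * ‖z Ω‖ := mul_nonneg hδ (norm_nonneg _)
    linarith
  set u := (2 : ℂ)⁻¹ • c + Complex.I • S with hu
  have husa : star u = (2 : ℂ)⁻¹ • c + (-Complex.I) • S := by
    rw [hu, star_add, star_smul, star_smul, hs, hSs, Complex.star_def, map_inv₀, map_ofNat,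
      Complex.conj_I]
  have hmul : ∀ t : ℂ, t * t = -1 → ((2 : ℂ)⁻¹ • c + (-t) • S) * ((2 : ℂ)⁻¹ • c + t • S) = 1 := by
    intro t ht
    rw [add_mul, mul_add, mul_add, smul_mul_smul_comm, smul_mul_smul_comm, smul_mul_smul_comm,
      smul_mul_smul_comm, hSc.eq, hS2]
    rw [show -t * t = (1 : ℂ) by linear_combination -ht]
    module
  refine ⟨u, add_mem (M.toStarSubalgebra.smul_mem hc _) (M.toStarSubalgebra.smul_mem hSM _),
    Unitary.mem_iff.2 ⟨?_, ?_⟩, ?_, fun z hz => ⟨?_, ?_⟩⟩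
  · rw [husa, hu]; exact hmul _ Complex.I_mul_I
  · rw [husa, hu]
    have := hmul (-Complex.I) (by rw [neg_mul_neg, Complex.I_mul_I])
    rwa [neg_neg] at this
  · rw [husa, hu]; module
  · have h1 : u Ω - D.J (star u Ω) = (2 : ℂ)⁻¹ • defect D c + Complex.I • defect D S := by
      rw [← defect_smul, ← defect_smul, ← defect_add]; rfl
    rw [h1, map_add, map_smul, map_smul]
    refine (norm_add_le _ _).trans ?_
    rw [norm_smul, norm_smul, norm_inv, RCLike.norm_ofNat, Complex.norm_I, one_mul]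
    have h2 : ‖z (defect D c)‖ ≤ δ * ‖z Ω‖ := by rw [defect, hs]; exact hd z hz
    have := key z hz
    linarith [mul_nonneg hδ (norm_nonneg (z Ω))]
  · have h1 : star u Ω - D.J (u Ω) = (2 : ℂ)⁻¹ • defect D c + (-Complex.I) • defect D S := by
      rw [← defect_smul, ← defect_smul, ← defect_add, ← husa, defect, star_star]
    rw [h1, map_add, map_smul, map_smul]
    refine (norm_add_le _ _).trans ?_
    rw [norm_smul, norm_smul, norm_inv, RCLike.norm_ofNat, norm_neg, Complex.norm_I, one_mul]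
    have h2 : ‖z (defect D c)‖ ≤ δ * ‖z Ω‖ := by rw [defect, hs]; exact hd z hz
    have := key z hz
    linarith [mul_nonneg hδ (norm_nonneg (z Ω))]

end Vale.Agent.P096.III.Encode
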