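import Vale.Agent.P096.III.Encode.Limit
import Vale.Agent.P096.III.Encode.Root
import Vale.Agent.P096.III.Iface

/-!
# P096, type III: the encoding into a far site
-/

namespace Vale.Agent.P096.III.Encode

open scoped InnerProductSpace ComplexConjugate Topology
open Filter
open Vale.Agent.P082 (Alg)
open Vale.Agent.P132 (ModData IsCS)

universe u

theorem exists_bounds {ι : Type*} (s : Finset ι) (Q : ι → ℝ → ℝ → Prop)
    (h : ∀ i ∈ s, ∃ L₀ s₀ : ℝ, 0 < L₀ ∧ 0 < s₀ ∧ ∀ L w : ℝ, L₀ ≤ L → 0 < w → w ≤ s₀ → Q i L w) :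
    ∃ L₀ s₀ : ℝ, 0 < L₀ ∧ 0 < s₀ ∧
      ∀ i ∈ s, ∀ L w : ℝ, L₀ ≤ L → 0 < w → w ≤ s₀ → Q i L w := by
  induction s using Finset.cons_induction with
  | empty => exact ⟨1, 1, one_pos, one_pos, fun i hi => absurd hi (Finset.notMem_empty i)⟩
  | cons a t ha ih =>
    obtain ⟨L₁, s₁, hL₁, hs₁, h₁⟩ := ih fun i hi => h i (Finset.mem_cons_of_mem hi)
    obtain ⟨L₂, s₂, hL₂, hs₂, h₂⟩ := h a (Finset.mem_cons_self a t)
    refine ⟨max L₁ L₂, min s₁ s₂, lt_max_of_lt_left hL₁, lt_min hs₁ hs₂, fun i hi L w hL hw hws =>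
      ?_⟩
    rcases Finset.mem_cons.1 hi with rfl | hi
    · exact h₂ L w ((le_max_right _ _).trans hL) hw (hws.trans (min_le_right _ _))
    · exact h₁ i hi L w ((le_max_left _ _).trans hL) hw (hws.trans (min_le_left _ _))

/-- A compression into a far site makes finitely many elements almost centralising, and a slice
gives them back. -/
theorem stmtEncode : Iface.StmtEncode.{u} := by
  intro H _ _ _ M N Ω F hP DM X hX P hPc θ hθ
  set B : ℝ := 1 + ∑ d ∈ P, ‖d Ω‖ ^ 2 with hB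
  have hB1 : 1 ≤ B := le_add_of_nonneg_right (Finset.sum_nonneg fun d _ => sq_nonneg _)
  have hB0 : 0 < B := zero_lt_one.trans_le hB1
  obtain ⟨τ, hτ, hτ2, hslice⟩ := exists_slice_near.{u} (η := θ / (3 * B)) (by positivity)
  obtain ⟨L₀, s₀, hL₀, hs₀, hcl⟩ := exists_bounds (X ×ˢ P)
    (fun q L w => ∀ K : ℕ, K ≠ 0 → (K : ℝ) * w = L →
      ‖⟪q.2 Ω, slice DM τ w K (q.1 : H →L[ℂ] H) (q.2 Ω)⟫_ℂ -
        ⟪q.2 Ω, (q.1 : H →L[ℂ] H) (q.2 Ω)⟫_ℂ‖ ≤ 2 * θ / 3) (by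
    rintro ⟨x, d⟩ hq
    obtain ⟨hx, hd⟩ := Finset.mem_product.1 hq
    obtain ⟨L₁, s₁, hL₁, hs₁, h₁⟩ := hslice H M Ω DM (x : H →L[ℂ] H) (d Ω) (d Ω) (θ / 3)
      (by positivity)
    refine ⟨L₁, s₁, hL₁, hs₁, fun L w hL hw hws K hK hKw => ?_⟩
    refine (h₁ K w hK hw hws (hL.trans_eq hKw.symm)).trans ?_
    have h2 : ‖d Ω‖ * (‖(x : H →L[ℂ] H)‖ * ‖d Ω‖) ≤ B := by
      calc ‖d Ω‖ * (‖(x : H →L[ℂ] H)‖ * ‖d Ω‖) ≤ ‖d Ω‖ * (1 * ‖d Ω‖) := by
            gcongr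
            exact (hX x hx).2
        _ = ‖d Ω‖ ^ 2 := by ring
        _ ≤ B := (Finset.single_le_sum (f := fun d => ‖d Ω‖ ^ 2) (fun d _ => sq_nonneg _) hd).trans
            (le_add_of_nonneg_left zero_le_one)
    have h3 := mul_le_mul_of_nonneg_left h2 (by positivity : 0 ≤ θ / (3 * B))
    rw [show θ / (3 * B) * B = θ / 3 by field_simp] at h3
    linarith)
  obtain ⟨l, hl⟩ := pow_unbounded_of_one_lt L₀ (one_lt_two (α := ℝ))
  set Λ : ℝ := (2 : ℝ) ^ l with hΛ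
  have hΛ0 : 0 < Λ := by positivity
  set C := 2 * defC / τ with hC
  have hC0 : 0 < C := by rw [hC, defC]; positivity
  set b := min s₀ (min τ (min (θ / C) (θ ^ 2 / (C ^ 2 * (Λ * Real.exp Λ))))) with hb
  have hb0 : 0 < b := lt_min hs₀ (lt_min hτ (lt_min (by positivity) (by positivity)))
  obtain ⟨j, hj⟩ := exists_pow_lt_of_lt_one hb0 (show (1 / 2 : ℝ) < 1 by norm_num)
  set w : ℝ := 1 / 2 ^ j with hw
  have hw0 : 0 < w := by positivity
  have hwb : w ≤ b := by rw [hw, ← one_div_pow]; exact hj.le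
  have hwτ : w ≤ τ := hwb.trans ((min_le_right _ _).trans (min_le_left _ _))
  have hwθ : w ≤ θ / C :=
    hwb.trans ((min_le_right _ _).trans ((min_le_right _ _).trans (min_le_left _ _)))
  have hwθ2 : w ≤ θ ^ 2 / (C ^ 2 * (Λ * Real.exp Λ)) :=
    hwb.trans ((min_le_right _ _).trans ((min_le_right _ _).trans (min_le_right _ _)))
  set k := l + j with hk
  have hKw : ((2 ^ k : ℕ) : ℝ) * w = Λ := by
    rw [hw, hΛ, hk, pow_add]
    push_cast
    field_simp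
  have hrat : ∀ a b : Fin (2 ^ k), rat (weight j k) b a = Real.exp (w * ((a : ℝ) - b) / 2) :=
    rat_weight j k
  have hlim : ∀ q ∈ X ×ˢ P, ∀ᶠ r in atTop,
      |‖q.2 (sliceOp F j k r Ω)‖ - ‖q.2 Ω‖| ≤ θ ∧
        ‖⟪q.2 (sliceOp F j k r Ω),
            iota DM τ w (F.e j k r) (q.1 : H →L[ℂ] H) (q.2 (sliceOp F j k r Ω))⟫_ℂ -
          ⟪q.2 Ω, (q.1 : H →L[ℂ] H) (q.2 Ω)⟫_ℂ‖ ≤ θ := by
    rintro ⟨x, d⟩ hq
    obtain ⟨hx, hd⟩ := Finset.mem_product.1 hq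
    have hdc := hPc d hd
    refine ((Metric.tendsto_nhds.1 (tendsto_norm_slice_vec F j k hdc) θ hθ).mono
      fun r hr => hr.le).and ?_
    filter_upwards [Metric.tendsto_nhds.1
      (tendsto_inner_slice_vec F hP DM hτ hw0.ne' j k hdc x.2) (θ / 3) (by positivity)] with r hr
    rw [dist_eq_norm] at hr
    refine (norm_sub_le_norm_sub_add_norm_sub _ _ _).trans
      ((add_le_add hr.le (hcl (x, d) hq Λ w hl.le hw0 (hwb.trans (min_le_left _ _)) (2 ^ k)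
        (by positivity) hKw)).trans_eq ?_)
    ring
  have hlim2 : ∀ d ∈ P, ∀ᶠ r in atTop, |‖d (sliceOp F j k r Ω)‖ - ‖d Ω‖| ≤ θ := fun d hd =>
    (Metric.tendsto_nhds.1 (tendsto_norm_slice_vec F j k (hPc d hd)) θ hθ).mono fun r hr => hr.le
  obtain ⟨r, hr1, hr2⟩ :=
    (((Finset.eventually_all _).2 hlim).and ((Finset.eventually_all _).2 hlim2)).exists
  have hsite := isSite_pinned hP j k r
  let ι : Alg M →ₗ[ℂ] Alg M :=
    { toFun := fun x => ⟨iota DM τ w (F.e j k r) (x : H →L[ℂ] H),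
        iota_mem DM hsite hτ hw0.ne' x.2⟩
      map_add' := fun x y => Subtype.ext (iota_add DM hτ hw0.ne' _ _)
      map_smul' := fun z x => Subtype.ext (iota_smul DM hτ hw0.ne' z _) }
  refine ⟨ι, sliceOp F j k r, C * w, sliceOp_mem F j k r, mul_pos hC0 hw0,
    ?_, ?_, fun x hx => ?_, hr2, fun x hx d hd => (hr1 (x, d) (Finset.mem_product.2 ⟨hx, hd⟩)).2⟩
  · rw [mul_comm, ← le_div_iff₀ hC0]
    exact hwθ
  · have h1 := norm_sliceOp_sq_le F j k r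
    have e : (2 : ℝ) ^ k / 2 ^ j = Λ := by rw [hk, hΛ, pow_add]; field_simp
    rw [e] at h1
    refine pow_le_pow_iff_left₀ (by positivity) hθ.le two_ne_zero |>.1 ?_
    rw [mul_pow]
    refine (mul_le_mul_of_nonneg_left h1 (sq_nonneg _)).trans ?_
    have h2 : (2 : ℝ) ^ k * w = Λ := by rw [← hKw]; simp
    rw [le_div_iff₀ (by positivity)] at hwθ2
    calc (C * w) ^ 2 * ((2 : ℝ) ^ k * Real.exp Λ) = w * (C ^ 2 * ((2 : ℝ) ^ k * w * Real.exp Λ)) := by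
          ring
      _ ≤ θ ^ 2 := by rw [h2]; exact hwθ2
  · obtain ⟨hxs, hxn⟩ := hX x hx
    have hxs' : star (x : H →L[ℂ] H) = (x : H →L[ℂ] H) := congrArg Subtype.val hxs
    have hxn' : ‖(x : H →L[ℂ] H)‖ ≤ 1 := hxn
    set c := iota DM τ w (F.e j k r) (x : H →L[ℂ] H) with hc
    have hcs : star c = c := by rw [hc, star_iota DM hsite.e_units hτ hw0.ne', hxs']
    have hcn : ‖c‖ ≤ 3 / 2 := by
      refine (norm_iota_le DM hsite.e_units hτ hw0.ne' _).trans ?_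
      nlinarith [norm_nonneg (x : H →L[ℂ] H)]
    have hd : ∀ z, InCentre M z → ‖z (c Ω - DM.J (c Ω))‖ ≤ defC * (w / τ) * ‖z Ω‖ := fun z hz => by
      have h := hsite.norm_defect_le DM hP.grps.cs hτ (hτ2.trans (by norm_num)) hw0.ne'
        (by rwa [abs_of_pos hw0]) hrat x.2 hz.1 hz.2
      rw [← hc, hcs, abs_of_pos hw0] at h
      refine h.trans (mul_le_mul_of_nonneg_right ?_ (norm_nonneg _))
      exact mul_le_of_le_one_right (by unfold defC; positivity) hxn'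
    obtain ⟨u, hu, huu, hcu, hud⟩ := exists_unitary_halves DM hP.grps.cs
      (iota_mem DM hsite hτ hw0.ne' x.2) hcs hcn (by unfold defC; positivity) hd
    have e : C * w = 2 * (defC * (w / τ)) := by rw [hC]; ring
    exact ⟨u, hu, huu, hcu, fun z hz => by rw [e]; exact hud z hz⟩

end Vale.Agent.P096.III.Encode
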