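import Vale.Agent.P096.III.Encode.Gram
import Vale.Agent.P132.Modular.Exports

/-!
# P096, type III, encoding: the parts of an element at evenly spaced frequencies

`part D τ s r x` is the Gaussian smear of the modular group at frequency `r`, of width `τ / |s|`
and mass scaled by `|s| / 2π`. The Toeplitz matrix of the parts at frequencies `s (a - b)` has
norm at most `(1 + τ) ‖x‖`, whatever its size.
-/

namespace Vale.Agent.P096.III.Encode

open scoped InnerProductSpace ComplexConjugate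
open MeasureTheory
open Vale.Agent.P132 (ModData IsCS gauss)
open Vale.Agent.P132.Fixed (gam ph sig sop)

universe u

variable {H : Type u} [NormedAddCommGroup H] [InnerProductSpace ℂ H] [CompleteSpace H]
  {M : VonNeumannAlgebra H} {Ω : H} (D : ModData M Ω)

/-- The window at frequency `r`, for spacing `s` and relative width `τ`. -/
noncomputable def win (τ s r : ℝ) (t : ℝ) : ℂ :=
  ((|s| / (2 * Real.pi) : ℝ) : ℂ) * gauss (τ / |s|) r (t : ℂ)

variable {τ s : ℝ}

theorem integrable_win (hτ : 0 < τ) (hs : s ≠ 0) (r : ℝ) : Integrable (win τ s r) :=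
  (P132.Fixed.integrable_gauss (div_pos hτ (abs_pos.2 hs)) r).const_mul _

theorem conj_win (r t : ℝ) : conj (win τ s r t) = win τ s (-r) t := by
  rw [win, win, map_mul, Complex.conj_ofReal, P132.Fixed.conj_gauss]

variable (τ s) in
/-- The part at frequency `r`. -/
noncomputable def part (r : ℝ) (x : H →L[ℂ] H) : H →L[ℂ] H := sop D (win τ s r) x

theorem part_apply (hτ : 0 < τ) (hs : s ≠ 0) (r : ℝ) (x : H →L[ℂ] H) (v : H) :
    part D τ s r x v = ∫ t : ℝ, win τ s r t • sig D t x v :=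
  P132.Fixed.sop_apply D (integrable_win hτ hs r) x v

theorem part_omega (hτ : 0 < τ) (hs : s ≠ 0) (r : ℝ) (x : H →L[ℂ] H) :
    part D τ s r x Ω = P132.Fixed.vint D (win τ s r) (x Ω) :=
  P132.Fixed.sop_omega D (integrable_win hτ hs r) x

theorem part_mem (hτ : 0 < τ) (hs : s ≠ 0) (r : ℝ) {x : H →L[ℂ] H} (hx : x ∈ M) :
    part D τ s r x ∈ M :=
  P132.Fixed.sop_mem D (integrable_win hτ hs r) hx

theorem star_part (hτ : 0 < τ) (hs : s ≠ 0) (r : ℝ) (x : H →L[ℂ] H) :
    star (part D τ s r x) = part D τ s (-r) (star x) := by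
  rw [part, P132.Fixed.star_sop D (integrable_win hτ hs r)]
  simp only [part, conj_win]

theorem part_add (hτ : 0 < τ) (hs : s ≠ 0) (r : ℝ) (x y : H →L[ℂ] H) :
    part D τ s r (x + y) = part D τ s r x + part D τ s r y := by
  refine ContinuousLinearMap.ext fun v => ?_
  rw [add_apply, part_apply D hτ hs, part_apply D hτ hs, part_apply D hτ hs,
    ← integral_add (P132.Fixed.integrable_smul_sig D (integrable_win hτ hs r) x v)
      (P132.Fixed.integrable_smul_sig D (integrable_win hτ hs r) y v)]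
  refine integral_congr_ae (Filter.Eventually.of_forall fun t => ?_)
  simp only [P132.Fixed.sig_apply, add_apply, map_add, smul_add]

theorem part_smul (hτ : 0 < τ) (hs : s ≠ 0) (r : ℝ) (z : ℂ) (x : H →L[ℂ] H) :
    part D τ s r (z • x) = z • part D τ s r x := by
  refine ContinuousLinearMap.ext fun v => ?_
  rw [smul_apply, part_apply D hτ hs, part_apply D hτ hs, ← integral_smul]
  refine integral_congr_ae (Filter.Eventually.of_forall fun t => ?_)
  simp only [P132.Fixed.sig_apply, smul_apply, map_smul, smul_comm z]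

/-- The Toeplitz pairing of two finite families of vectors. -/
theorem norm_pairing_le (hτ : 0 < τ) (hs : s ≠ 0) {K : ℕ} (z : H →L[ℂ] H) (p q : Fin K → H) :
    ‖∑ a : Fin K, ∑ b : Fin K, ⟪p a, part D τ s (s * ((a : ℝ) - b)) z (q b)⟫_ℂ‖ ≤
      (1 + τ) * ‖z‖ * (((∑ a, ‖p a‖ ^ 2) + ∑ b, ‖q b‖ ^ 2) / 2) := by
  set T := τ / |s| with hTd
  have hT : 0 < T := div_pos hτ (abs_pos.2 hs)
  set ρ : ℝ := |s| / (2 * Real.pi) with hρd
  have hρ : 0 ≤ ρ := by positivity
  let g : ℝ → ℝ := fun t => Real.exp (-(t / T) ^ 2 / 2)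
  let h : (Fin K → H) → ℝ → H := fun w => trig (freq (-s) K) w
  have e1 : ∀ a b : Fin K, ⟪p a, part D τ s (s * ((a : ℝ) - b)) z (q b)⟫_ℂ =
      ∫ t : ℝ, win τ s (s * ((a : ℝ) - b)) t * ⟪p a, sig D t z (q b)⟫_ℂ := fun a b => by
    rw [part_apply D hτ hs, ← integral_inner
      (P132.Fixed.integrable_smul_sig D (integrable_win hτ hs _) z (q b))]
    simp only [inner_smul_right]
  have hint : ∀ a b : Fin K, Integrable fun t : ℝ =>
      win τ s (s * ((a : ℝ) - b)) t * ⟪p a, sig D t z (q b)⟫_ℂ := fun a b => by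
    refine (integrable_win hτ hs _).mul_bdd (c := ‖p a‖ * (‖z‖ * ‖q b‖))
      (continuous_const.inner (P132.Fixed.continuous_sig_comp D continuous_id continuous_const
        z)).aestronglyMeasurable (Filter.Eventually.of_forall fun t => ?_)
    exact (norm_inner_le_norm _ _).trans
      (mul_le_mul_of_nonneg_left (P132.Fixed.norm_sig_le D t z _) (norm_nonneg _))
  have e2 : ∀ t : ℝ, ∑ a : Fin K, ∑ b : Fin K,
      win τ s (s * ((a : ℝ) - b)) t * ⟪p a, sig D t z (q b)⟫_ℂ =
      ((ρ * g t : ℝ) : ℂ) * ⟪h p t, sig D t z (h q t)⟫_ℂ := fun t => by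
    simp only [h, trig, map_sum, map_smul, sum_inner, inner_sum, inner_smul_left,
      inner_smul_right, Finset.mul_sum, P132.Fixed.conj_ph]
    rw [Finset.sum_comm]
    refine Finset.sum_congr rfl fun b _ => Finset.sum_congr rfl fun a _ => ?_
    rw [win, P132.Fixed.gauss_eq, P132.Fixed.gam_ofReal,
      show s * ((a : ℝ) - b) = -freq (-s) K a + freq (-s) K b by simp [freq]; ring,
      P132.Fixed.ph_add, Complex.ofReal_mul]
    simp only [g, hTd, hρd]
    ring
  simp only [e1]
  simp only [← integral_finsetSum _ fun b _ => hint _ b]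
  rw [← integral_finsetSum _ fun a _ => integrable_finsetSum _ fun b _ => hint a b]
  simp only [e2]
  set A := √(2 * Real.pi) / |s| * (τ + √(2 * Real.pi)) with hAd
  have hA : RowBound T (freq (-s) K) A := by
    have := rowBound_freq (T := T) (K := K) hτ.le (neg_ne_zero.2 hs) (by rw [abs_neg])
    rwa [abs_neg] at this
  have hbd : ∀ t, ‖((ρ * g t : ℝ) : ℂ) * ⟪h p t, sig D t z (h q t)⟫_ℂ‖ ≤
      ρ * ‖z‖ / 2 * (g t * ‖h p t‖ ^ 2 + g t * ‖h q t‖ ^ 2) := fun t => by
    have h2 := (norm_inner_le_norm (𝕜 := ℂ) (h p t) (sig D t z (h q t))).trans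
      (mul_le_mul_of_nonneg_left (P132.Fixed.norm_sig_le D t z _) (norm_nonneg _))
    have hg : 0 ≤ ρ * g t := mul_nonneg hρ (Real.exp_pos _).le
    rw [norm_mul, Complex.norm_real, Real.norm_of_nonneg hg]
    refine (mul_le_mul_of_nonneg_left h2 hg).trans ?_
    calc ρ * g t * (‖h p t‖ * (‖z‖ * ‖h q t‖))
        = ρ * ‖z‖ * g t * (‖h p t‖ * ‖h q t‖) := by ring
      _ ≤ ρ * ‖z‖ * g t * ((‖h p t‖ ^ 2 + ‖h q t‖ ^ 2) / 2) := by
          refine mul_le_mul_of_nonneg_left ?_ (mul_nonneg (mul_nonneg hρ (norm_nonneg _))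
            (Real.exp_pos _).le)
          nlinarith [sq_nonneg (‖h p t‖ - ‖h q t‖)]
      _ = _ := by ring
  have ig := fun w : Fin K → H => integrable_gram hT (freq (-s) K) w
  refine (norm_integral_le_of_norm_le (((ig p).add (ig q)).const_mul _)
    (Filter.Eventually.of_forall hbd)).trans ?_
  simp only [Pi.add_apply]
  rw [integral_const_mul, integral_add (ig p) (ig q)]
  refine (mul_le_mul_of_nonneg_left (add_le_add (integral_gram_le hT hA p)
    (integral_gram_le hT hA q)) (by positivity)).trans ?_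
  set P := ∑ a, ‖p a‖ ^ 2
  set Q := ∑ b, ‖q b‖ ^ 2
  have hc : ρ * A ≤ 1 + τ := by
    have hs' : |s| ≠ 0 := (abs_pos.2 hs).ne'
    set r := √(2 * Real.pi) with hr
    have hr0 : 0 < r := by positivity
    have hr1 : 1 ≤ r := Real.one_le_sqrt.2 (by nlinarith [Real.pi_gt_three])
    have hp : 2 * Real.pi = r ^ 2 := (Real.sq_sqrt (by positivity)).symm
    rw [hρd, hAd, hp, show |s| / r ^ 2 * (r / |s| * (τ + r)) = τ / r + 1 by field_simp]
    linarith [div_le_self hτ.le hr1]
  calc ρ * ‖z‖ / 2 * (A * P + A * Q) = ρ * A * (‖z‖ * ((P + Q) / 2)) := by ring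
    _ ≤ (1 + τ) * (‖z‖ * ((P + Q) / 2)) := mul_le_mul_of_nonneg_right hc (by positivity)
    _ = _ := by ring

end Vale.Agent.P096.III.Encode
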