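import Vale.Agent.P096.III.Defs
import Vale.Agent.P096.III.Analytic.Central

/-!
# P096, type III, encoding: one site

Matrix units `e` of `M` with partners `f` in the commutant that agree on `Ω` up to the weights:
`f` is `J e J`, the corner unit is fixed by the modular group, and the vector splits exactly over
the centre.
-/

namespace Vale.Agent.P096.III.Encode

open scoped InnerProductSpace ComplexConjugate ComplexOrder
open MeasureTheory Complex
open Vale.Agent.P132 (ModData IsCS)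
open Vale.Agent.P132.Modular (conjOp)

universe u

variable {H : Type u} [NormedAddCommGroup H] [InnerProductSpace ℂ H] [CompleteSpace H]
  {M : VonNeumannAlgebra H} {Ω : H} {K : ℕ}

/-- One site. -/
structure IsSite (M : VonNeumannAlgebra H) (Ω : H) (c : Fin K → ℝ)
    (e f : Fin K → Fin K → H →L[ℂ] H) : Prop where
  pos : ∀ a, 0 < c a
  sum_one : ∑ a, c a = 1
  e_units : IsUnits e
  f_units : IsUnits f
  e_mem : ∀ a b, e a b ∈ M
  f_mem : ∀ a b, f a b ∈ M.commutant
  rel : ∀ a b, (Real.sqrt (c a) : ℂ) • e a b Ω = (Real.sqrt (c b) : ℂ) • f b a Ω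

/-- The ratio of the square roots of two weights. -/
noncomputable def rat (c : Fin K → ℝ) (a b : Fin K) : ℝ := Real.sqrt (c a) / Real.sqrt (c b)

variable {c : Fin K → ℝ} {e f : Fin K → Fin K → H →L[ℂ] H}

theorem IsSite.rat_pos (h : IsSite M Ω c e f) (a b : Fin K) : 0 < rat c a b :=
  div_pos (Real.sqrt_pos.2 (h.pos a)) (Real.sqrt_pos.2 (h.pos b))

theorem IsSite.rat_mul (h : IsSite M Ω c e f) (a b : Fin K) : rat c a b * rat c b a = 1 := by
  have ha := (Real.sqrt_pos.2 (h.pos a)).ne'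
  have hb := (Real.sqrt_pos.2 (h.pos b)).ne'
  rw [rat, rat]
  field_simp

theorem IsSite.rat_self (h : IsSite M Ω c e f) (a : Fin K) : rat c a a = 1 :=
  div_self (Real.sqrt_pos.2 (h.pos a)).ne'

theorem IsSite.rat_sq (h : IsSite M Ω c e f) (a b : Fin K) : rat c a b ^ 2 = c a / c b := by
  rw [rat, div_pow, Real.sq_sqrt (h.pos a).le, Real.sq_sqrt (h.pos b).le]

theorem IsSite.e_omega (h : IsSite M Ω c e f) (a b : Fin K) :
    e a b Ω = (rat c b a : ℂ) • f b a Ω := by
  have ha : (Real.sqrt (c a) : ℂ) ≠ 0 := ofReal_ne_zero.2 (Real.sqrt_pos.2 (h.pos a)).ne'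
  rw [rat, ofReal_div, div_eq_inv_mul, mul_smul, ← h.rel, smul_smul, inv_mul_cancel₀ ha, one_smul]

theorem IsSite.f_omega (h : IsSite M Ω c e f) (a b : Fin K) :
    f a b Ω = (rat c b a : ℂ) • e b a Ω := by
  rw [h.e_omega, smul_smul, ← ofReal_mul, h.rat_mul, ofReal_one, one_smul]

theorem IsSite.proj (h : IsSite M Ω c e f) (a : Fin K) : e a a * e a a = e a a := by
  rw [h.e_units.mul, if_pos rfl]

theorem norm_partial_iso {u p : H →L[ℂ] H} (hu : star u * u = p) (hp : star p * p = p) (v : H) :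
    ‖u v‖ = ‖p v‖ := by
  rw [norm_eq_sqrt_re_inner (𝕜 := ℂ), norm_eq_sqrt_re_inner (𝕜 := ℂ),
    ← ContinuousLinearMap.adjoint_inner_right u, ← ContinuousLinearMap.adjoint_inner_right p,
    ← ContinuousLinearMap.star_eq_adjoint, ← ContinuousLinearMap.star_eq_adjoint,
    ← mul_apply_eq_comp, ← mul_apply_eq_comp, hu, hp]

theorem norm_unit {e : Fin K → Fin K → H →L[ℂ] H} (h : IsUnits e) (a b : Fin K) (v : H) :
    ‖e a b v‖ = ‖e b b v‖ :=
  norm_partial_iso (by rw [h.star_eq, h.mul, if_pos rfl])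
    (by rw [h.star_eq, h.mul, if_pos rfl]) v

theorem sum_norm_diag {e : Fin K → Fin K → H →L[ℂ] H} (h : IsUnits e) (v : H) :
    ∑ a, ‖e a a v‖ ^ 2 = ‖v‖ ^ 2 := by
  have e1 : ∀ a, ‖e a a v‖ ^ 2 = RCLike.re ⟪v, e a a v⟫_ℂ := fun a => by
    rw [norm_sq_eq_re_inner (𝕜 := ℂ), ← ContinuousLinearMap.adjoint_inner_right (e a a),
      ← ContinuousLinearMap.star_eq_adjoint, ← mul_apply_eq_comp, h.star_eq, h.mul, if_pos rfl]
  simp only [e1]
  rw [← map_sum, ← inner_sum, ← sum_apply, h.sum, one_apply_eq_self, ← norm_sq_eq_re_inner]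

theorem norm_diag_le {e : Fin K → Fin K → H →L[ℂ] H} (h : IsUnits e) (a : Fin K) (v : H) :
    ‖e a a v‖ ≤ ‖v‖ :=
  pow_le_pow_iff_left₀ (norm_nonneg _) (norm_nonneg _) two_ne_zero |>.1
    ((Finset.single_le_sum (f := fun b => ‖e b b v‖ ^ 2) (fun b _ => sq_nonneg _)
      (Finset.mem_univ a)).trans_eq (sum_norm_diag h v))

theorem IsSite.commute (h : IsSite M Ω c e f) (a b i j : Fin K) :
    Commute (e a b) (f i j) :=
  VonNeumannAlgebra.mem_commutant_iff.1 (h.f_mem i j) (e a b) (h.e_mem a b)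

theorem apply_comm {x y : H →L[ℂ] H} (h : Commute x y) (v : H) : x (y v) = y (x v) :=
  congrArg (fun T : H →L[ℂ] H => T v) h.eq

theorem commute_mem {x y : H →L[ℂ] H} (hx : x ∈ M) (hy : y ∈ M.commutant) : Commute x y :=
  VonNeumannAlgebra.mem_commutant_iff.1 hy x hx

variable (D : ModData M Ω)

theorem conjOp_conjOp (x : H →L[ℂ] H) : conjOp D (conjOp D x) = x :=
  ContinuousLinearMap.ext fun v => by
    rw [P132.Modular.conjOp_apply, P132.Modular.conjOp_apply, D.J_invol, D.J_invol]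

theorem conjOp_mem_alg (hcs : IsCS M Ω) {y : H →L[ℂ] H} (hy : y ∈ M.commutant) :
    conjOp D y ∈ M := by
  obtain ⟨x, hx, hyx⟩ := P132.Modular.commutant_onto D hcs hy
  rwa [show conjOp D y = x from ContinuousLinearMap.ext fun v => by
    rw [P132.Modular.conjOp_apply, hyx, D.J_invol, D.J_invol]]

theorem J_smul_real (r : ℝ) (v : H) : D.J ((r : ℂ) • v) = (r : ℂ) • D.J v := by
  rw [D.J_smul, conj_ofReal]

/-- The partners are `J e J`. -/
theorem IsSite.conjOp_e (h : IsSite M Ω c e f) (hcs : IsCS M Ω) (a b : Fin K) :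
    conjOp D (e a b) = f a b := by
  set y := e a b - conjOp D (f a b) with hy
  have hyM : y ∈ M := sub_mem (h.e_mem a b) (conjOp_mem_alg D hcs (h.f_mem a b))
  have hstar : D.J (star y Ω) = -((rat c a b : ℂ) • y Ω) := by
    rw [hy, star_sub, h.e_units.star_eq, P132.Modular.star_conjOp, h.f_units.star_eq, sub_apply,
      sub_apply, P132.Fixed.J_sub, P132.Modular.conjOp_omega, P132.Modular.conjOp_omega,
      D.J_invol, h.f_omega, h.f_omega, J_smul_real, smul_sub, smul_smul, ← ofReal_mul,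
      h.rat_mul, ofReal_one, one_smul]
    abel
  have hpos := P132.Modular.inner_nonneg D hyM
  rw [hstar, inner_neg_right, inner_smul_right, inner_self_eq_norm_sq_to_K,
    RCLike.ofReal_eq_complex_ofReal, ← ofReal_pow, ← ofReal_mul, ← ofReal_neg] at hpos
  have h0 : ‖y Ω‖ ^ 2 = 0 := by
    have h1 : (0 : ℝ) ≤ -(rat c a b * ‖y Ω‖ ^ 2) := Complex.zero_le_real.1 hpos
    nlinarith [h.rat_pos a b, sq_nonneg ‖y Ω‖]
  have : y = 0 := hcs.separating y hyM (norm_eq_zero.1 (pow_eq_zero_iff two_ne_zero |>.1 h0))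
  rw [hy, sub_eq_zero] at this
  rw [this, conjOp_conjOp]

theorem IsSite.conjOp_f (h : IsSite M Ω c e f) (hcs : IsCS M Ω) (a b : Fin K) :
    conjOp D (f a b) = e a b := by
  rw [← h.conjOp_e D hcs, conjOp_conjOp]

/-- A vector which is the kernel mean of twice itself is fixed by the modular group. -/
theorem fixed_of_strip {ξ : H}
    (hξ : P132.Fixed.vint D (Analytic.kern 1) (ξ + ξ) = ξ) (t : ℝ) : D.U t ξ = ξ := by
  have hk := Analytic.integrable_kern one_pos
  set g : ℝ → ℝ := fun t => (Analytic.kern 1 t).re * (‖ξ‖ ^ 2 - (⟪ξ, D.U t ξ⟫_ℂ).re) with hg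
  have hre : ∀ t, (Analytic.kern 1 t).re = (P132.Tomita.den t)⁻¹ := fun t => by
    simp [Analytic.kern]
  have hle : ∀ t, (⟪ξ, D.U t ξ⟫_ℂ).re ≤ ‖ξ‖ ^ 2 := fun t => by
    refine ((Complex.re_le_norm _).trans (norm_inner_le_norm _ _)).trans_eq ?_
    rw [P132.Fixed.norm_U, sq]
  have hg0 : 0 ≤ g := fun t => by
    rw [hg, Pi.zero_apply]
    exact mul_nonneg (by rw [hre]; exact (inv_pos.2 (P132.Tomita.den_pos t)).le)
      (sub_nonneg.2 (hle t))
  have hi1 : Integrable fun t => (Analytic.kern 1 t).re * ‖ξ‖ ^ 2 := hk.re.mul_const _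
  have hiC : Integrable fun t => Analytic.kern 1 t * ⟪ξ, D.U t ξ⟫_ℂ := hk.mul_bdd
    ((continuous_const.inner (D.U_cont ξ)).aestronglyMeasurable) (c := ‖ξ‖ * ‖ξ‖)
    (Filter.Eventually.of_forall fun t =>
      (norm_inner_le_norm _ _).trans_eq (by rw [P132.Fixed.norm_U]))
  have e1 : ∀ t, g t = (Analytic.kern 1 t).re * ‖ξ‖ ^ 2 -
      (Analytic.kern 1 t * ⟪ξ, D.U t ξ⟫_ℂ).re := fun t => by
    simp [hg, Analytic.kern, mul_sub]
  have hiR : Integrable fun t => (Analytic.kern 1 t * ⟪ξ, D.U t ξ⟫_ℂ).re := hiC.re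
  have hgi : Integrable g := (hi1.sub hiR).congr (Filter.Eventually.of_forall fun t => (e1 t).symm)
  have h0 : ∫ t, g t = 0 := by
    rw [integral_congr_ae (Filter.Eventually.of_forall e1), integral_sub hi1 hiR,
      integral_mul_const, sub_eq_zero]
    have h1 : ∫ t, (Analytic.kern 1 t).re = 1 / 2 := by
      simp only [hre]; exact P132.Tomita.integral_inv_den
    have h2 := congrArg (fun w => (⟪ξ, w⟫_ℂ).re) hξ
    simp only [P132.Fixed.vint_add D hk, inner_add_right, Complex.add_re,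
      inner_self_eq_norm_sq_to_K, P132.Fixed.inner_vint D hk] at h2
    have h3 : (∫ t, (Analytic.kern 1 t * ⟪ξ, D.U t ξ⟫_ℂ).re) =
        (∫ t, Analytic.kern 1 t * ⟪ξ, D.U t ξ⟫_ℂ).re := integral_re hiC
    rw [h1, h3]
    norm_cast at h2
    have h4 : (∫ t, Analytic.kern 1 t * ⟪ξ, D.U t ξ⟫_ℂ).re +
        (∫ t, Analytic.kern 1 t * ⟪ξ, D.U t ξ⟫_ℂ).re = ‖ξ‖ ^ 2 := h2
    linarith
  have hgc : Continuous g := (Complex.continuous_re.comp (Analytic.continuous_kern 1)).mul
    (continuous_const.sub (Complex.continuous_re.comp (continuous_const.inner (D.U_cont ξ))))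
  have hz : g = fun _ => (0 : ℝ) := (Continuous.ae_eq_iff_eq volume hgc continuous_const).1
    ((integral_eq_zero_iff_of_nonneg hg0 hgi).1 h0)
  have h4 : (⟪ξ, D.U t ξ⟫_ℂ).re = ‖ξ‖ ^ 2 := by
    have := congrFun hz t
    simp only [hg, mul_eq_zero, hre, inv_eq_zero, (P132.Tomita.den_pos t).ne', false_or] at this
    linarith
  have h5 := norm_sub_sq (𝕜 := ℂ) ξ (D.U t ξ)
  simp only [RCLike.re_to_complex, h4, P132.Fixed.norm_U] at h5
  have : ‖ξ - D.U t ξ‖ = 0 := by nlinarith [norm_nonneg (ξ - D.U t ξ)]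
  exact (sub_eq_zero.1 (norm_eq_zero.1 this)).symm

variable [NeZero K]

/-- The corner of the site. -/
def corner (e f : Fin K → Fin K → H →L[ℂ] H) : H →L[ℂ] H := f 0 0 * e 0 0

theorem IsSite.comm_U_e (h : IsSite M Ω c e f) (hcs : IsCS M Ω) (t : ℝ) (v : H) :
    D.U t (e 0 0 v) = e 0 0 (D.U t v) := by
  have h1 : e 0 0 Ω = f 0 0 Ω := by rw [h.e_omega, h.rat_self, ofReal_one, one_smul]
  have h2 : D.J (e 0 0 Ω) = e 0 0 Ω := by
    rw [← P132.Modular.conjOp_omega D, h.conjOp_e D hcs, h1]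
  have h3 := Analytic.strip_eq D hcs (h.e_mem 0 0) (h.f_mem 0 0) h1
  rw [h.e_units.star_eq, h.f_units.star_eq, ← h1, h2] at h3
  have hs : P132.Fixed.sig D t (e 0 0) = e 0 0 := by
    rw [← sub_eq_zero]
    refine hcs.separating _ (sub_mem (D.U_conj t _ (h.e_mem 0 0)) (h.e_mem 0 0)) ?_
    rw [sub_apply, P132.Fixed.sig_omega, fixed_of_strip D h3, sub_self]
  conv_rhs => rw [← hs, P132.Fixed.sig_apply, P132.Fixed.U_neg_U]

theorem IsSite.comm_U_f (h : IsSite M Ω c e f) (hcs : IsCS M Ω) (t : ℝ) (v : H) :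
    D.U t (f 0 0 v) = f 0 0 (D.U t v) := by
  rw [← h.conjOp_e D hcs, P132.Modular.conjOp_apply, P132.Modular.conjOp_apply, ← D.J_U,
    h.comm_U_e D hcs, D.J_U]

theorem IsSite.corner_vint (h : IsSite M Ω c e f) (hcs : IsCS M Ω) {g : ℝ → ℂ}
    (hg : Integrable g) (v : H) :
    corner e f (P132.Fixed.vint D g v) = P132.Fixed.vint D g (corner e f v) := by
  rw [P132.Fixed.vint, P132.Fixed.vint,
    ← (corner e f).integral_comp_comm (P132.Fixed.integrable_smul_U D hg v)]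
  refine integral_congr_ae (Filter.Eventually.of_forall fun t => ?_)
  simp only [map_smul]
  rw [corner, mul_apply_eq_comp, mul_apply_eq_comp, h.comm_U_f D hcs, h.comm_U_e D hcs]

/-- The vector splits over the centre at every site. -/
theorem IsSite.norm_central (h : IsSite M Ω c e f) {z : H →L[ℂ] H} (hz : z ∈ M)
    (hz' : z ∈ M.commutant) : ‖z (e 0 0 Ω)‖ ^ 2 = c 0 * ‖z Ω‖ ^ 2 := by
  have hze : ∀ a b, ∀ v, z (e a b v) = e a b (z v) := fun a b v =>
    (apply_comm (commute_mem (h.e_mem a b) hz') v).symm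
  have hzf : ∀ a b, ∀ v, z (f a b v) = f a b (z v) := fun a b v =>
    apply_comm (commute_mem hz (h.f_mem a b)) v
  have key : ∀ a, c a * ‖z (e 0 0 Ω)‖ ^ 2 = c 0 * ‖e a a (z Ω)‖ ^ 2 := fun a => by
    have h1 : ‖z (e 0 0 Ω)‖ = ‖z (e a 0 Ω)‖ := by rw [hze, hze, norm_unit h.e_units a 0]
    have h2 : ‖z (f a a Ω)‖ = ‖e a a (z Ω)‖ := by
      rw [h.f_omega, h.rat_self, ofReal_one, one_smul, hze]
    rw [h1, h.e_omega a 0, map_smul, norm_smul, Complex.norm_real, Real.norm_of_nonneg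
      (h.rat_pos 0 a).le, hzf, norm_unit h.f_units 0 a, ← hzf, h2, mul_pow, h.rat_sq]
    have := (h.pos a).ne'
    field_simp
  have hsum := Finset.sum_congr rfl fun a (_ : a ∈ Finset.univ) => key a
  rwa [← Finset.sum_mul, h.sum_one, one_mul, ← Finset.mul_sum, sum_norm_diag h.e_units] at hsum

end Vale.Agent.P096.III.Encode
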